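import Vale.Agent.P232.Slicing.Box

/-!
The slicing inequality: for a reduced set with height `F`, slice areas `A z` and slice boundary
lengths `len (F · z)`, and continuous weights with `c² + s² ≤ 1`,
`∫ c (A z) len (F · z) dz + ∫ s (A) dA ≤ M`.
-/

open MeasureTheory Set Filter Topology

namespace Vale.Agent.P232.Slicing

/-- Slice area. -/
noncomputable def area (F : ℝ → ℝ → ℝ) (z : ℝ) : ℝ := ∫ x in Ioo (0 : ℝ) 1, F x z

theorem sqrt_lip (a b a' b' : ℝ) :
    Real.sqrt (a ^ 2 + b ^ 2) ≤ Real.sqrt (a' ^ 2 + b' ^ 2) + |a - a'| + |b - b'| := by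
  have h1 : Real.sqrt (a' ^ 2 + b' ^ 2) ^ 2 = a' ^ 2 + b' ^ 2 := Real.sq_sqrt (by positivity)
  have h0 := Real.sqrt_nonneg (a' ^ 2 + b' ^ 2)
  have ha : |a'| ≤ Real.sqrt (a' ^ 2 + b' ^ 2) := Real.abs_le_sqrt (by nlinarith)
  have hb : |b'| ≤ Real.sqrt (a' ^ 2 + b' ^ 2) := Real.abs_le_sqrt (by nlinarith)
  rw [Real.sqrt_le_left (by positivity)]
  have e1 : a' * (a - a') ≤ Real.sqrt (a' ^ 2 + b' ^ 2) * |a - a'| :=
    (le_abs_self _).trans (by rw [abs_mul]; exact mul_le_mul_of_nonneg_right ha (abs_nonneg _))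
  have e2 : b' * (b - b') ≤ Real.sqrt (a' ^ 2 + b' ^ 2) * |b - b'| :=
    (le_abs_self _).trans (by rw [abs_mul]; exact mul_le_mul_of_nonneg_right hb (abs_nonneg _))
  nlinarith [sq_abs (a - a'), sq_abs (b - b'), mul_nonneg (abs_nonneg (a - a')) (abs_nonneg (b - b'))]

theorem sqrt_scale {H : ℝ} (hH : 0 ≤ H) (a b : ℝ) :
    Real.sqrt ((H * a) ^ 2 + (H * b) ^ 2) = H * Real.sqrt (a ^ 2 + b ^ 2) := by
  rw [show (H * a) ^ 2 + (H * b) ^ 2 = H ^ 2 * (a ^ 2 + b ^ 2) by ring,
    Real.sqrt_mul (sq_nonneg H), Real.sqrt_sq hH]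

theorem sub_close {P Q : ℝ → ℝ} (hP : Antitone P) (hQ : Antitone Q) {p q z : ℝ}
    (hz : z ∈ Icc p q) : |(P z - Q z) - (P p - Q p)| ≤ (P p - P q) + (Q p - Q q) :=
  abs_le.2 ⟨by linarith [hP hz.1, hP hz.2, hQ hz.1, hQ hz.2],
    by linarith [hP hz.1, hP hz.2, hQ hz.1, hQ hz.2]⟩

/-- Near-equality in Jensen's inequality for the Euclidean norm on a short interval. -/
theorem gap {θ : ℝ → ℝ} (hθi : Integrable θ) (hθ : ∀ z, 0 ≤ θ z) {p q : ℝ}
    (hsupp : ∀ z, θ z ≠ 0 → z ∈ Icc p q) {g1 g2 : ℝ → ℝ} (h1m : Measurable g1) (h2m : Measurable g2)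
    {C : ℝ} (h1 : ∀ z, |g1 z| ≤ C) (h2 : ∀ z, |g2 z| ≤ C) {D1 D2 : ℝ}
    (hd1 : ∀ z ∈ Icc p q, |g1 z - g1 p| ≤ D1) (hd2 : ∀ z ∈ Icc p q, |g2 z - g2 p| ≤ D2) :
    ∫ z, θ z * Real.sqrt (g1 z ^ 2 + g2 z ^ 2) ≤
      Real.sqrt ((∫ z, θ z * g1 z) ^ 2 + (∫ z, θ z * g2 z) ^ 2) + 2 * (∫ z, θ z) * (D1 + D2) := by
  set H := ∫ z, θ z with hH
  have hH0 : 0 ≤ H := integral_nonneg hθ
  have hr : ∀ z, |Real.sqrt (g1 z ^ 2 + g2 z ^ 2)| ≤ C + C := fun z => by
    rw [abs_of_nonneg (Real.sqrt_nonneg _)]
    have := sqrt_le_add (abs_nonneg (g1 z)) (abs_nonneg (g2 z))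
    rw [sq_abs, sq_abs] at this
    linarith [h1 z, h2 z]
  have i1 : Integrable fun z => θ z * g1 z := integrable_mul_bdd hθi h1m.aestronglyMeasurable h1
  have i2 : Integrable fun z => θ z * g2 z := integrable_mul_bdd hθi h2m.aestronglyMeasurable h2
  have i3 : Integrable fun z => θ z * Real.sqrt (g1 z ^ 2 + g2 z ^ 2) :=
    integrable_mul_bdd hθi ((h1m.pow_const 2).add (h2m.pow_const 2)).sqrt.aestronglyMeasurable hr
  have up : ∫ z, θ z * Real.sqrt (g1 z ^ 2 + g2 z ^ 2) ≤
      H * (Real.sqrt (g1 p ^ 2 + g2 p ^ 2) + D1 + D2) := by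
    rw [hH, ← integral_mul_const]
    refine integral_mono i3 (hθi.mul_const _) fun z => ?_
    by_cases hz : θ z = 0
    · simp [hz]
    · refine mul_le_mul_of_nonneg_left ?_ (hθ z)
      have := sqrt_lip (g1 z) (g2 z) (g1 p) (g2 p)
      linarith [hd1 z (hsupp z hz), hd2 z (hsupp z hz)]
  have mean : ∀ g : ℝ → ℝ, Integrable (fun z => θ z * g z) → ∀ D,
      (∀ z ∈ Icc p q, |g z - g p| ≤ D) → |H * g p - ∫ z, θ z * g z| ≤ H * D := by
    intro g hg D hd
    rw [hH, ← integral_mul_const, ← integral_sub (hθi.mul_const _) hg, ← integral_mul_const]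
    refine abs_integral_le_integral_abs.trans (integral_mono_of_nonneg
      (Eventually.of_forall fun z => abs_nonneg _) (hθi.mul_const _) (Eventually.of_forall fun z => ?_))
    by_cases hz : θ z = 0
    · simp [hz]
    · have : |θ z * g p - θ z * g z| = θ z * |g z - g p| := by
        rw [← mul_sub, abs_mul, abs_of_nonneg (hθ z), abs_sub_comm]
      simp only [this]
      exact mul_le_mul_of_nonneg_left (hd z (hsupp z hz)) (hθ z)
  have := sqrt_lip (H * g1 p) (H * g2 p) (∫ z, θ z * g1 z) (∫ z, θ z * g2 z)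
  rw [sqrt_scale hH0] at this
  linarith [mean g1 i1 D1 hd1, mean g2 i2 D2 hd2]

/-- Telescoping of two-step drops along the grid. -/
theorem sum_drop_le {f : ℝ → ℝ} (hf01 : ∀ x, f x ∈ Icc (0 : ℝ) 1) (N : ℕ) :
    ∑ j ∈ Finset.range (N + 1), (f (node N j) - f (node N j + 2 * hh N)) ≤ 2 := by
  have hn : ∀ j, node N j + 2 * hh N = node N (j + 2) := fun j => by
    rw [node_succ, node_succ]; ring
  have : ∀ j, f (node N j) - f (node N j + 2 * hh N) =
      (f (node N j) - f (node N (j + 1))) + (f (node N (j + 1)) - f (node N (j + 1 + 1))) := fun j => by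
    rw [hn]; ring
  simp only [this, Finset.sum_add_distrib]
  rw [Finset.sum_range_sub' (fun j => f (node N j)), Finset.sum_range_sub' (fun j => f (node N (j + 1)))]
  linarith [(hf01 (node N 0)).2, (hf01 (node N (N + 1))).1, (hf01 (node N (0 + 1))).2,
    (hf01 (node N (N + 1 + 1))).1]

/-- Weighted integral of `1_{0<f}` over the `k`-th bump. -/
noncomputable def bPos (n k : ℕ) (f : ℝ → ℝ) : ℝ := ∫ x, pu n k x * if 0 < f x then 1 else 0

/-- Weighted integral of `1_{1≤f}` over the `k`-th bump. -/
noncomputable def bOne (n k : ℕ) (f : ℝ → ℝ) : ℝ := ∫ x, pu n k x * if 1 ≤ f x then 1 else 0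

theorem measurable_pos {f : ℝ → ℝ} (hf : Measurable f) :
    Measurable fun x => if 0 < f x then (1 : ℝ) else 0 :=
  Measurable.ite (measurableSet_lt measurable_const hf) measurable_const measurable_const

theorem measurable_one {f : ℝ → ℝ} (hf : Measurable f) :
    Measurable fun x => if 1 ≤ f x then (1 : ℝ) else 0 :=
  Measurable.ite (measurableSet_le measurable_const hf) measurable_const measurable_const

theorem abs_ite_le (p : Prop) [Decidable p] : |if p then (1 : ℝ) else 0| ≤ 1 := by
  split_ifs <;> simp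

theorem bSeg_eq {f : ℝ → ℝ} (hf : Measurable f) (n k : ℕ) :
    bSeg n k f = bPos n k f - bOne n k f := by
  rw [bSeg, bPos, bOne, ← integral_sub
    (integrable_mul_bdd (integrable_pu n k) (measurable_pos hf).aestronglyMeasurable
      (fun x => abs_ite_le _))
    (integrable_mul_bdd (integrable_pu n k) (measurable_one hf).aestronglyMeasurable
      (fun x => abs_ite_le _))]
  refine integral_congr_ae (Eventually.of_forall fun x => ?_)
  simp only [inI]
  split_ifs <;> first | (exfalso; grind) | ring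

theorem bPos_anti {f g : ℝ → ℝ} (hf : Measurable f) (hg : Measurable g) (h : ∀ x, f x ≤ g x)
    (n k : ℕ) : bPos n k f ≤ bPos n k g := by
  refine integral_mono (integrable_mul_bdd (integrable_pu n k)
    (measurable_pos hf).aestronglyMeasurable (fun x => abs_ite_le _))
    (integrable_mul_bdd (integrable_pu n k) (measurable_pos hg).aestronglyMeasurable
      (fun x => abs_ite_le _)) fun x => mul_le_mul_of_nonneg_left ?_ (pu_nonneg n k x)
  have := h x
  split_ifs <;> first | (exfalso; linarith) | norm_num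

theorem bOne_anti {f g : ℝ → ℝ} (hf : Measurable f) (hg : Measurable g) (h : ∀ x, f x ≤ g x)
    (n k : ℕ) : bOne n k f ≤ bOne n k g := by
  refine integral_mono (integrable_mul_bdd (integrable_pu n k)
    (measurable_one hf).aestronglyMeasurable (fun x => abs_ite_le _))
    (integrable_mul_bdd (integrable_pu n k) (measurable_one hg).aestronglyMeasurable
      (fun x => abs_ite_le _)) fun x => mul_le_mul_of_nonneg_left ?_ (pu_nonneg n k x)
  have := h x
  split_ifs <;> first | (exfalso; linarith) | norm_num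

theorem bite_mem (n k : ℕ) {φ : ℝ → ℝ} (hm : Measurable φ) (hφ : ∀ x, φ x ∈ Icc (0 : ℝ) 1) :
    (∫ x, pu n k x * φ x) ∈ Icc (0 : ℝ) 1 := by
  refine ⟨integral_nonneg fun x => mul_nonneg (pu_nonneg n k x) (hφ x).1, ?_⟩
  refine le_trans (integral_mono (integrable_mul_bdd (integrable_pu n k) hm.aestronglyMeasurable
    (C := 1) fun x => abs_le.2 ⟨by linarith [(hφ x).1], (hφ x).2⟩) (integrable_pu n k)
    fun x => mul_le_of_le_one_right (pu_nonneg n k x) (hφ x).2) ?_
  rw [integral_pu]; linarith [hh_le n]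

section
variable {D : Set R3} {M : ℝ} (hD : IsReduced D M) (e : Equiv.Perm (Fin 3))
include hD

theorem measurable_slice (z : ℝ) : Measurable fun x => height D e x z :=
  (height_anti_fst hD e z).measurable

omit hD in
theorem slice_mem (z x : ℝ) : height D e x z ∈ Icc (0 : ℝ) 1 := height_mem e x z

theorem antitone_av_slice (n k : ℕ) :
    Antitone fun z => av (node n k) (hh n) fun x => height D e x z := fun z z' hz =>
  av_mono (hh_pos n) _ (measurable_slice hD e z') (measurable_slice hD e z)
    (abs_le_one_of_mem (slice_mem e z')) (abs_le_one_of_mem (slice_mem e z))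
    (fun x => height_anti_snd hD e x hz)

theorem antitone_bPos_slice (n k : ℕ) :
    Antitone fun z => bPos n k fun x => height D e x z := fun z z' hz =>
  bPos_anti (measurable_slice hD e z') (measurable_slice hD e z)
    (fun x => height_anti_snd hD e x hz) n k

theorem antitone_bOne_slice (n k : ℕ) :
    Antitone fun z => bOne n k fun x => height D e x z := fun z z' hz =>
  bOne_anti (measurable_slice hD e z') (measurable_slice hD e z)
    (fun x => height_anti_snd hD e x hz) n k

theorem measurable_aSeg_slice (n k : ℕ) :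
    Measurable fun z => aSeg n k fun x => height D e x z :=
  (antitone_av_slice hD e n k).measurable.sub (antitone_av_slice hD e n (k + 1)).measurable

theorem measurable_bSeg_slice (n k : ℕ) :
    Measurable fun z => bSeg n k fun x => height D e x z := by
  simp only [fun z => bSeg_eq (measurable_slice hD e z) n k]
  exact (antitone_bPos_slice hD e n k).measurable.sub (antitone_bOne_slice hD e n k).measurable

theorem measurable_L_slice (n : ℕ) : Measurable fun z => L n fun x => height D e x z :=
  Finset.measurable_sum _ fun k _ => (((measurable_aSeg_slice hD e n k).pow_const 2).add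
    ((measurable_bSeg_slice hD e n k).pow_const 2)).sqrt

theorem measurable_len_slice : Measurable fun z => len fun x => height D e x z :=
  Measurable.iSup fun n => Measurable.iInf fun m => measurable_L_slice hD e (n + m)

omit hD in
theorem area_mem (z : ℝ) : area (height D e) z ∈ Icc (0 : ℝ) 1 := by
  refine ⟨integral_nonneg fun x => (height_mem e x z).1, ?_⟩
  calc area (height D e) z ≤ ∫ _ in Ioo (0 : ℝ) 1, (1 : ℝ) := by
        refine integral_mono_of_nonneg (Eventually.of_forall fun x => (height_mem e x z).1)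
          (integrable_const _) (Eventually.of_forall fun x => (height_mem e x z).2)
    _ = 1 := by simp

theorem antitone_area : Antitone (area (height D e)) := fun z z' hz => by
  refine integral_mono_of_nonneg (Eventually.of_forall fun x => (height_mem e x z').1) ?_
    (Eventually.of_forall fun x => height_anti_snd hD e x hz)
  exact (integrable_const (1 : ℝ)).mono' (measurable_slice hD e z).aestronglyMeasurable
    (Eventually.of_forall fun x => abs_le_one_of_mem (slice_mem e z) x)

/-- Slicing inequality at a fixed horizontal resolution. -/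
theorem slice_le_fixed (n : ℕ) {c s : ℝ → ℝ} (hc : Continuous c) (hs : Continuous s)
    (hc0 : ∀ t ∈ Icc (0 : ℝ) 1, 0 ≤ c t) (hs0 : ∀ t ∈ Icc (0 : ℝ) 1, 0 ≤ s t)
    (hcs : ∀ t ∈ Icc (0 : ℝ) 1, c t ^ 2 + s t ^ 2 ≤ 1) {z0 z1 : ℝ} (hz0 : z0 ∈ Ioo (0 : ℝ) 1)
    (hz1 : z1 ∈ Ioo (0 : ℝ) 1) (hz : z0 ≤ z1) :
    (∫ z in Ioo (0 : ℝ) 1, c (area (height D e) z) * L n fun x => height D e x z) +
      (∫ t in area (height D e) z1..area (height D e) z0, s t) ≤ M + 4 * hh n := by
  set F := height D e with hFdef
  set A := area F with hAdef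
  have hA01 : ∀ z, A z ∈ Icc (0 : ℝ) 1 := area_mem e
  have hAm : Antitone A := antitone_area hD e
  have hF01 : ∀ z x, F x z ∈ Icc (0 : ℝ) 1 := slice_mem e
  have hFanti : ∀ z, Antitone fun x => F x z := height_anti_fst hD e
  have habsF : ∀ z x, |F x z| ≤ 1 := fun z => abs_le_one_of_mem (hF01 z)
  have hmF : ∀ z, Measurable fun x => F x z := measurable_slice hD e
  set Ln : ℝ → ℝ := fun z => L n fun x => F x z with hLn
  have hLn0 : ∀ z, 0 ≤ Ln z := fun z => L_nonneg n _
  have hLn2 : ∀ z, Ln z ≤ 2 := fun z => L_le_two (hFanti z) (hF01 z) n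
  have hLnm : Measurable Ln := measurable_L_slice hD e n
  have hc1 : ∀ t ∈ Icc (0 : ℝ) 1, c t ≤ 1 := fun t ht => by nlinarith [hcs t ht, sq_nonneg (s t)]
  have hs1 : ∀ t ∈ Icc (0 : ℝ) 1, s t ≤ 1 := fun t ht => by nlinarith [hcs t ht, sq_nonneg (c t)]
  set w : ℝ → ℝ := fun z => c (A z) * Ln z with hwdef
  have hw : ∀ z, w z ∈ Icc (0 : ℝ) 2 := fun z =>
    ⟨mul_nonneg (hc0 _ (hA01 z)) (hLn0 z),
      (mul_le_of_le_one_left (hLn0 z) (hc1 _ (hA01 z))).trans (hLn2 z)⟩
  have hwm : Measurable w := (hc.measurable.comp hAm.measurable).mul hLnm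
  have hwabs : ∀ z, |w z| ≤ 2 := fun z => by rw [abs_of_nonneg (hw z).1]; exact (hw z).2
  -- the area lost by the cut-off
  set R : ℝ → ℝ := fun z => ∫ x in Ioo (0 : ℝ) 1, (1 - tot n x) * F x z with hRdef
  have hRint : ∀ z, IntegrableOn (fun x => (1 - tot n x) * F x z) (Ioo 0 1) := fun z =>
    integrable_mul_bdd ((integrable_const 1).sub (integrable_tot n).integrableOn)
      (hmF z).aestronglyMeasurable (habsF z)
  have htot1 : ∀ x, 0 ≤ 1 - tot n x := fun x => sub_nonneg.2 (tot_le_one n x)
  have hR01 : ∀ z, R z ∈ Icc (0 : ℝ) 1 := fun z => by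
    refine ⟨integral_nonneg fun x => mul_nonneg (htot1 x) (hF01 z x).1, ?_⟩
    refine le_trans (integral_mono (hRint z) (integrable_const (1 : ℝ)) fun x => ?_) (by simp)
    exact mul_le_one₀ (by linarith [tot_nonneg n x]) (hF01 z x).1 (hF01 z x).2
  have hRm : Antitone R := fun z z' hzz => integral_mono (hRint z') (hRint z) fun x =>
    mul_le_mul_of_nonneg_left (height_anti_snd hD e x hzz) (htot1 x)
  have hR4 : ∀ z, R z ≤ 4 * hh n := fun z => le_trans (integral_mono (hRint z)
    ((integrable_const 1).sub (integrable_tot n).integrableOn)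
    fun x => mul_le_of_le_one_right (htot1 x) (hF01 z x).2) (one_sub_tot_integral n)
  refine le_of_forall_pos_le_add fun ε hε => ?_
  set ω := ε / 4 with hωdef
  have hω : 0 < ω := by linarith
  obtain ⟨δ1, hδ1, hcδ⟩ := Metric.uniformContinuousOn_iff.1
    (isCompact_Icc.uniformContinuousOn_of_continuous (s := Icc (0 : ℝ) 1) hc.continuousOn) ω hω
  obtain ⟨δ2, hδ2, hsδ⟩ := Metric.uniformContinuousOn_iff.1
    (isCompact_Icc.uniformContinuousOn_of_continuous (s := Icc (0 : ℝ) 1) hs.continuousOn) ω hω
  set δ := min δ1 δ2 / 2 with hδdef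
  have hδ : 0 < δ := by have := lt_min hδ1 hδ2; linarith
  set K : ℝ := 16 * ((n : ℝ) + 1) + 4 / δ + 8 with hKdef
  have hK : 0 < K := by positivity
  obtain ⟨N, hN⟩ := eventually_atTop.1
    ((((tendsto_hh.const_mul K).eventually (eventually_lt_nhds (show K * 0 < ω by linarith))).and
      ((tendsto_hh.const_mul 2).eventually (eventually_lt_nhds (show 2 * 0 < z0 by linarith [hz0.1])))).and
      ((tendsto_hh.const_mul 2).eventually
        (eventually_lt_nhds (show 2 * 0 < 1 - z1 by linarith [hz1.2]))))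
  obtain ⟨⟨hKH, hHz0⟩, hHz1⟩ := hN N le_rfl
  set H := hh N with hHdef
  have hH : 0 < H := hh_pos N
  set good : ℕ → Prop := fun j => A (node N j) - A (node N j + 2 * H) ≤ δ with hgood
  have hdrop : ∀ j, 0 ≤ A (node N j) - A (node N j + 2 * H) := fun j =>
    sub_nonneg.2 (hAm (by linarith))
  classical
  set cj : ℕ → ℝ := fun j => if good j then c (A (node N j)) else 0 with hcj
  set sj : ℕ → ℝ := fun j => if good j then s (A (node N j)) else 1 with hsj
  have hcj0 : ∀ j, 0 ≤ cj j := fun j => by simp only [hcj]; split_ifs; exacts [hc0 _ (hA01 _), le_rfl]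
  have hcj1 : ∀ j, cj j ≤ 1 := fun j => by
    simp only [hcj]; split_ifs; exacts [hc1 _ (hA01 _), zero_le_one]
  have hsj0 : ∀ j, 0 ≤ sj j := fun j => by
    simp only [hsj]; split_ifs; exacts [hs0 _ (hA01 _), zero_le_one]
  have hsj1 : ∀ j, sj j ≤ 1 := fun j => by
    simp only [hsj]; split_ifs; exacts [hs1 _ (hA01 _), le_rfl]
  have hcsj : ∀ j, cj j ^ 2 + sj j ^ 2 ≤ 1 := fun j => by
    simp only [hcj, hsj]; split_ifs; exacts [hcs _ (hA01 _), by norm_num]
  -- slice data
  set a : ℕ → ℝ → ℝ := fun k z => aSeg n k fun x => F x z with hadef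
  set b : ℕ → ℝ → ℝ := fun k z => bSeg n k fun x => F x z with hbdef
  have ham : ∀ k, Measurable (a k) := fun k => measurable_aSeg_slice hD e n k
  have hbm : ∀ k, Measurable (b k) := fun k => measurable_bSeg_slice hD e n k
  have hav : ∀ k z, av (node n k) (hh n) (fun x => F x z) ∈ Icc (0 : ℝ) 1 := fun k z =>
    ⟨(hF01 z _).1.trans (av_antitone_mem (hh_pos n) (hFanti z) (habsF z) _).1,
      (av_antitone_mem (hh_pos n) (hFanti z) (habsF z) _).2.trans (hF01 z _).2⟩
  have haC : ∀ k z, |a k z| ≤ 1 := fun k z => by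
    have h1 := hav k z; have h2 := hav (k + 1) z
    exact abs_le.2 ⟨by simp only [hadef, aSeg]; linarith [h1.1, h2.2],
      by simp only [hadef, aSeg]; linarith [h1.2, h2.1]⟩
  have hbC : ∀ k z, |b k z| ≤ 1 := fun k z => by
    have := bSeg_mem (hFanti z) n k
    rw [abs_of_nonneg this.1]; linarith [this.2, hh_le n]
  set Ia : ℕ → ℕ → ℝ := fun j k => ∫ z, pu N j z * a k z with hIa
  set Ib : ℕ → ℕ → ℝ := fun j k => ∫ z, pu N j z * b k z with hIb
  set Q : ℕ → ℕ → ℝ := fun j k => Real.sqrt (Ia j k ^ 2 + Ib j k ^ 2) with hQ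
  -- the box inequality with the chosen coefficients
  have hbox := box_le hD e n N (fun j k => cj j * (Ia j k / Q j k))
    (fun j k => cj j * (Ib j k / Q j k)) (fun j _ => sj j) (fun j k => by
      have hsq : Q j k ^ 2 = Ia j k ^ 2 + Ib j k ^ 2 := Real.sq_sqrt (by positivity)
      rcases eq_or_ne (Q j k) 0 with hz0' | hne
      · simp only [hz0', div_zero, mul_zero]; nlinarith [hcsj j, sq_nonneg (cj j)]
      · have : (cj j * (Ia j k / Q j k)) ^ 2 + (cj j * (Ib j k / Q j k)) ^ 2 = cj j ^ 2 := by
          field_simp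
          rw [← hsq]
        linarith [hcsj j])
  have hIa' : ∀ j k, ∫ z, pu N j z *
      ∫ x, (ker (node n k) (hh n) x - ker (node n (k + 1)) (hh n) x) * F x z = Ia j k := by
    intro j k
    refine integral_congr_ae (Eventually.of_forall fun z => ?_)
    simp only [hadef, aSeg, av, sub_mul]
    rw [integral_sub (integrable_ker_mul (hh_pos n) _ (hmF z) (habsF z))
      (integrable_ker_mul (hh_pos n) _ (hmF z) (habsF z))]
  have hid : ∀ j, ∑ k ∈ Finset.range (n + 1), (∫ z, (ker (node N j) (hh N) z -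
      ker (node N (j + 1)) (hh N) z) * ∫ x, pu n k x * F x z) = aSeg N j A - aSeg N j R := by
    intro j
    have hIn : ∀ k, Measurable fun z => ∫ x, pu n k x * F x z := fun k =>
      (Antitone.measurable fun z z' hzz => integral_mono
        (integrable_mul_bdd (integrable_pu n k) (hmF z').aestronglyMeasurable (habsF z'))
        (integrable_mul_bdd (integrable_pu n k) (hmF z).aestronglyMeasurable (habsF z))
        fun x => mul_le_mul_of_nonneg_left (height_anti_snd hD e x hzz) (pu_nonneg n k x))
    have hKi : Integrable (fun z => ker (node N j) (hh N) z - ker (node N (j + 1)) (hh N) z) :=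
      (integrable_ker (hh_pos N) _).sub (integrable_ker (hh_pos N) _)
    rw [← integral_finsetSum _ fun k _ => integrable_mul_bdd hKi (hIn k).aestronglyMeasurable
      (C := 1) fun z => by
        have := bite_mem n k (hmF z) (hF01 z)
        rw [abs_of_nonneg this.1]; exact this.2]
    have hdiff : ∀ z, ∑ k ∈ Finset.range (n + 1), (ker (node N j) (hh N) z -
        ker (node N (j + 1)) (hh N) z) * (∫ x, pu n k x * F x z) =
        (ker (node N j) (hh N) z - ker (node N (j + 1)) (hh N) z) * (A z - R z) := by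
      intro z
      rw [← Finset.mul_sum, ← integral_finsetSum _ fun k _ =>
        integrable_mul_bdd (integrable_pu n k) (hmF z).aestronglyMeasurable (habsF z)]
      congr 1
      simp only [← Finset.sum_mul]
      rw [hAdef, area, hRdef]
      simp only
      rw [← integral_sub ((integrable_const (1 : ℝ)).mono' (hmF z).aestronglyMeasurable
        (Eventually.of_forall (habsF z))) (hRint z)]
      rw [← setIntegral_eq_integral_of_forall_compl_eq_zero (s := Ioo (0 : ℝ) 1)
        (fun x hx => by
          have : ∑ k ∈ Finset.range (n + 1), pu n k x = 0 := tot_eq_zero n hx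
          simp [this])]
      refine integral_congr_ae (Eventually.of_forall fun x => ?_)
      simp only [tot]; ring
    rw [integral_congr_ae (Eventually.of_forall hdiff)]
    simp only [aSeg, av, mul_sub, sub_mul]
    have hi : ∀ k (f : ℝ → ℝ), Antitone f → (∀ x, f x ∈ Icc (0 : ℝ) 1) →
        Integrable fun z => ker (node N k) (hh N) z * f z := fun k f hf hf1 =>
      integrable_ker_mul (hh_pos N) _ hf.measurable (abs_le_one_of_mem hf1)
    have iA : Integrable fun z => ker (node N j) (hh N) z * A z -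
        ker (node N (j + 1)) (hh N) z * A z := (hi j A hAm hA01).sub (hi (j + 1) A hAm hA01)
    have iR : Integrable fun z => ker (node N j) (hh N) z * R z -
        ker (node N (j + 1)) (hh N) z * R z := (hi j R hRm hR01).sub (hi (j + 1) R hRm hR01)
    rw [integral_sub iA iR,
      integral_sub (hi j A hAm hA01) (hi (j + 1) A hAm hA01),
      integral_sub (hi j R hRm hR01) (hi (j + 1) R hRm hR01)]
  have hbox' : ∑ j ∈ Finset.range (N + 1), ((∑ k ∈ Finset.range (n + 1), cj j * Q j k) +
      sj j * (aSeg N j A - aSeg N j R)) ≤ M := by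
    refine le_trans (le_of_eq (Finset.sum_congr rfl fun j _ => ?_)) hbox
    rw [← hid j, Finset.mul_sum, ← Finset.sum_add_distrib]
    refine Finset.sum_congr rfl fun k _ => ?_
    have hib : ∫ z, pu N j z * ∫ x, pu n k x * inI (F x z) = Ib j k := rfl
    rw [hIa', hib]
    have hsq : Q j k ^ 2 = Ia j k ^ 2 + Ib j k ^ 2 := Real.sq_sqrt (by positivity)
    rcases eq_or_ne (Q j k) 0 with h0 | hne
    · rw [h0]; simp [hFdef]
    · simp only [hFdef]
      field_simp
      linear_combination (cj j) * hsq
  -- the loss of area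
  have hRsum : ∑ j ∈ Finset.range (N + 1), sj j * aSeg N j R ≤ 4 * hh n := by
    refine le_trans (Finset.sum_le_sum fun j _ =>
      mul_le_of_le_one_left (aSeg_nonneg hRm hR01 N j) (hsj1 j)) ?_
    rw [show ∑ j ∈ Finset.range (N + 1), aSeg N j R = av (node N 0) (hh N) R -
      av (node N (N + 1)) (hh N) R from Finset.sum_range_sub' (fun j => av (node N j) (hh N) R) _]
    have h1 := (av_antitone_mem (hh_pos N) hRm (abs_le_one_of_mem hR01) (node N 0)).2
    have h2 := (av_antitone_mem (hh_pos N) hRm (abs_le_one_of_mem hR01) (node N (N + 1))).1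
    linarith [hR4 (node N 0), (hR01 (node N (N + 1) + hh N)).1]
  -- horizontal part
  set dP : ℕ → ℕ → ℝ := fun j k =>
    ((av (node n k) (hh n) fun x => F x (node N j)) -
      av (node n k) (hh n) fun x => F x (node N j + 2 * H)) +
    ((av (node n (k + 1)) (hh n) fun x => F x (node N j)) -
      av (node n (k + 1)) (hh n) fun x => F x (node N j + 2 * H)) +
    ((bPos n k fun x => F x (node N j)) - bPos n k fun x => F x (node N j + 2 * H)) +
    ((bOne n k fun x => F x (node N j)) - bOne n k fun x => F x (node N j + 2 * H)) with hdP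
  have hgap : ∀ j k, ∫ z, pu N j z * Real.sqrt (a k z ^ 2 + b k z ^ 2) ≤ Q j k + 2 * H * dP j k := by
    intro j k
    have hd1 : ∀ z ∈ Icc (node N j) (node N j + 2 * H), |a k z - a k (node N j)| ≤ _ := fun z hz =>
      sub_close (antitone_av_slice hD e n k) (antitone_av_slice hD e n (k + 1)) hz
    have hd2 : ∀ z ∈ Icc (node N j) (node N j + 2 * H), |b k z - b k (node N j)| ≤ _ := fun z hz => by
      simp only [hbdef, bSeg_eq (hmF _)]
      exact sub_close (antitone_bPos_slice hD e n k) (antitone_bOne_slice hD e n k) hz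
    have := gap (integrable_pu N j) (pu_nonneg N j)
      (fun z hz => Ioo_subset_Icc_self (pu_support N j hz)) (ham k) (hbm k) (haC k) (hbC k) hd1 hd2
    rw [integral_pu] at this
    simp only [hQ, hdP, hIa, hIb]
    linarith
  have hdPsum : ∀ k, ∑ j ∈ Finset.range (N + 1), dP j k ≤ 8 := by
    intro k
    simp only [hdP, Finset.sum_add_distrib]
    have b0 : ∀ z, bPos n k (fun x => F x z) ∈ Icc (0 : ℝ) 1 := fun z =>
      bite_mem n k (measurable_pos (hmF z)) fun x => by split_ifs <;> simp
    have b1 : ∀ z, bOne n k (fun x => F x z) ∈ Icc (0 : ℝ) 1 := fun z =>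
      bite_mem n k (measurable_one (hmF z)) fun x => by split_ifs <;> simp
    linarith [sum_drop_le (hav k) N,
      sum_drop_le (hav (k + 1)) N,
      sum_drop_le b0 N, sum_drop_le b1 N]
  have hwint : ∀ j, Integrable fun z => pu N j z * w z := fun j =>
    integrable_mul_bdd (integrable_pu N j) hwm.aestronglyMeasurable hwabs
  have hLint : ∀ j, Integrable fun z => pu N j z * Ln z := fun j =>
    integrable_mul_bdd (integrable_pu N j) hLnm.aestronglyMeasurable (C := 2) fun z => by
      rw [abs_of_nonneg (hLn0 z)]; exact hLn2 z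
  have hstepA : ∀ j, ∫ z, pu N j z * w z ≤ (∑ k ∈ Finset.range (n + 1), cj j * Q j k) +
      2 * H * (∑ k ∈ Finset.range (n + 1), dP j k) + 2 * ω * H +
      2 * H * ((A (node N j) - A (node N j + 2 * H)) / δ) := by
    intro j
    have h1 : ∫ z, pu N j z * Ln z ≤ (∑ k ∈ Finset.range (n + 1), (Q j k + 2 * H * dP j k)) := by
      have : ∀ z, pu N j z * Ln z =
          ∑ k ∈ Finset.range (n + 1), pu N j z * Real.sqrt (a k z ^ 2 + b k z ^ 2) :=
        fun z => Finset.mul_sum _ _ _
      simp only [this]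
      have hsi : ∀ k, Integrable fun z => pu N j z * Real.sqrt (a k z ^ 2 + b k z ^ 2) := fun k =>
        integrable_mul_bdd (integrable_pu N j)
          (f := fun z => Real.sqrt (a k z ^ 2 + b k z ^ 2))
          (((ham k).pow_const 2).add ((hbm k).pow_const 2)).sqrt.aestronglyMeasurable (C := 2)
          fun z => by
            rw [abs_of_nonneg (Real.sqrt_nonneg _)]
            have := sqrt_le_add (abs_nonneg (a k z)) (abs_nonneg (b k z))
            rw [sq_abs, sq_abs] at this
            linarith [haC k z, hbC k z]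
      rw [integral_finsetSum _ fun k _ => hsi k]
      exact Finset.sum_le_sum fun k _ => hgap j k
    have h2 : ∫ z, pu N j z * w z ≤ cj j * (∫ z, pu N j z * Ln z) + 2 * ω * H +
        2 * H * ((A (node N j) - A (node N j + 2 * H)) / δ) := by
      have hr : cj j * (∫ z, pu N j z * Ln z) + 2 * ω * H +
          2 * H * ((A (node N j) - A (node N j + 2 * H)) / δ) = ∫ z, (cj j * (pu N j z * Ln z) +
          pu N j z * (2 * ω + 2 * ((A (node N j) - A (node N j + 2 * H)) / δ))) := by
        rw [integral_add ((hLint j).const_mul _) ((integrable_pu N j).mul_const _),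
          integral_const_mul, integral_mul_const, integral_pu]
        ring
      rw [hr]
      refine integral_mono (hwint j)
        (((hLint j).const_mul _).add ((integrable_pu N j).mul_const _)) fun z => ?_
      by_cases hz0' : pu N j z = 0
      · simp [hz0']
      have hzI := Ioo_subset_Icc_self (pu_support N j hz0')
      have hp := pu_nonneg N j z
      have hkey : w z ≤ cj j * Ln z + (2 * ω + 2 * ((A (node N j) - A (node N j + 2 * H)) / δ)) := by
        have hq : 0 ≤ (A (node N j) - A (node N j + 2 * H)) / δ := div_nonneg (hdrop j) hδ.le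
        by_cases hg : good j
        · have hd : dist (A z) (A (node N j)) < δ1 := by
            rw [Real.dist_eq, abs_lt]
            have h1 := hAm hzI.1; have h2 := hAm hzI.2
            have := min_le_left δ1 δ2
            constructor <;> linarith [show A (node N j) - A (node N j + 2 * H) ≤ δ from hg]
          have := hcδ _ (hA01 z) _ (hA01 (node N j)) hd
          rw [Real.dist_eq, abs_lt] at this
          simp only [hwdef, hcj, if_pos hg]
          nlinarith [hLn0 z, hLn2 z]
        · have : 1 ≤ (A (node N j) - A (node N j + 2 * H)) / δ :=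
            (one_le_div hδ).2 (le_of_lt (not_le.1 hg))
          simp only [hcj, if_neg hg, zero_mul]
          linarith [(hw z).2]
      calc pu N j z * w z ≤ pu N j z *
            (cj j * Ln z + (2 * ω + 2 * ((A (node N j) - A (node N j + 2 * H)) / δ))) :=
            mul_le_mul_of_nonneg_left hkey hp
        _ = _ := by ring
    refine h2.trans ?_
    have h3 := mul_le_mul_of_nonneg_left h1 (hcj0 j)
    rw [Finset.mul_sum] at h3
    have hdP0 : ∀ k, 0 ≤ dP j k := fun k => by
      have hp : node N j ≤ node N j + 2 * H := by linarith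
      simp only [hdP]
      linarith [antitone_av_slice hD e n k hp, antitone_av_slice hD e n (k + 1) hp,
        antitone_bPos_slice hD e n k hp, antitone_bOne_slice hD e n k hp]
    have h4 : ∑ k ∈ Finset.range (n + 1), cj j * (Q j k + 2 * H * dP j k) ≤
        (∑ k ∈ Finset.range (n + 1), cj j * Q j k) + 2 * H * ∑ k ∈ Finset.range (n + 1), dP j k := by
      rw [Finset.mul_sum, ← Finset.sum_add_distrib]
      refine Finset.sum_le_sum fun k _ => ?_
      rw [mul_add]
      linarith [mul_le_of_le_one_left (mul_nonneg (by linarith : 0 ≤ 2 * H) (hdP0 k)) (hcj1 j)]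
    linarith
  have hwsum : (∫ z in Ioo (0 : ℝ) 1, w z) ≤
      (∑ j ∈ Finset.range (N + 1), ∫ z, pu N j z * w z) + 8 * H := by
    rw [← integral_finsetSum _ fun j _ => hwint j]
    have hsupp : ∫ z, ∑ j ∈ Finset.range (N + 1), pu N j z * w z =
        ∫ z in Ioo (0 : ℝ) 1, tot N z * w z := by
      simp only [← Finset.sum_mul]
      exact (setIntegral_eq_integral_of_forall_compl_eq_zero (f := fun z => tot N z * w z)
        (fun z hz => by simp [tot_eq_zero N hz])).symm
    rw [hsupp]
    have hwI : IntegrableOn w (Ioo 0 1) := (integrable_const (2 : ℝ)).mono' hwm.aestronglyMeasurable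
      (Eventually.of_forall hwabs)
    have hone : IntegrableOn (fun z => 2 * (1 - tot N z)) (Ioo 0 1) :=
      ((integrable_const 1).sub (integrable_tot N).integrableOn).const_mul 2
    have htw : IntegrableOn (fun z => tot N z * w z) (Ioo 0 1) :=
      (integrable_mul_bdd (integrable_tot N) hwm.aestronglyMeasurable hwabs).integrableOn
    have h1 : (∫ z in Ioo (0 : ℝ) 1, w z) ≤
        ∫ z in Ioo (0 : ℝ) 1, (tot N z * w z + 2 * (1 - tot N z)) :=
      integral_mono hwI (htw.add hone) fun z => by
        nlinarith [hw z, (hw z).1, (hw z).2, tot_le_one N z, tot_nonneg N z]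
    rw [integral_add htw hone, integral_const_mul] at h1
    have := one_sub_tot_integral N
    linarith
  -- vertical part
  set Ā : ℕ → ℝ := fun j => av (node N j) (hh N) A with hĀ
  have hĀm : ∀ j, Ā j ∈ Icc (A (node N j + H)) (A (node N j)) := fun j =>
    av_antitone_mem (hh_pos N) hAm (abs_le_one_of_mem hA01) _
  have hĀ01 : ∀ j, Ā j ∈ Icc (0 : ℝ) 1 := fun j =>
    ⟨(hA01 _).1.trans (hĀm j).1, (hĀm j).2.trans (hA01 _).2⟩
  have hi : ∀ u v : ℝ, IntervalIntegrable s volume u v := fun u v => hs.intervalIntegrable u v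
  have hstepB : ∀ j, (∫ t in Ā (j + 1)..Ā j, s t) ≤ (sj j + ω) * aSeg N j A := by
    intro j
    have hle : Ā (j + 1) ≤ Ā j := sub_nonneg.1 (aSeg_nonneg hAm hA01 N j)
    have hb := intervalIntegral.integral_mono_on hle (hi _ _) intervalIntegrable_const
      (g := fun _ => sj j + ω) fun t ht => by
        have ht01 : t ∈ Icc (0 : ℝ) 1 := ⟨(hĀ01 (j + 1)).1.trans ht.1, ht.2.trans (hĀ01 j).2⟩
        by_cases hg : good j
        · have hd : dist t (A (node N j)) < δ2 := by
            have h1 := (hĀm (j + 1)).1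
            rw [node_succ, show node N j + hh N + H = node N j + 2 * H by rw [hHdef]; ring] at h1
            have h2 := (hĀm j).2
            have := min_le_right δ1 δ2
            rw [Real.dist_eq, abs_lt]
            constructor <;> linarith [ht.1, ht.2,
              show A (node N j) - A (node N j + 2 * H) ≤ δ from hg]
          have := hsδ _ ht01 _ (hA01 _) hd
          rw [Real.dist_eq, abs_lt] at this
          simp only [hsj, if_pos hg]; linarith
        · simp only [hsj, if_neg hg]; linarith [hs1 t ht01]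
    rw [intervalIntegral.integral_const, smul_eq_mul, mul_comm] at hb
    exact hb
  have hsumB : ∀ m, ∑ j ∈ Finset.range m, (∫ t in Ā (j + 1)..Ā j, s t) = ∫ t in Ā m..Ā 0, s t := by
    intro m
    induction m with
    | zero => simp
    | succ m ih =>
      rw [Finset.sum_range_succ, ih, add_comm,
        intervalIntegral.integral_add_adjacent_intervals (hi _ _) (hi _ _)]
  have hB : (∫ t in A z1..A z0, s t) ≤ ∫ t in Ā (N + 1)..Ā 0, s t := by
    have h0 : A z0 ≤ Ā 0 := le_trans (hAm (by rw [node_zero]; linarith)) (hĀm 0).1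
    have h1 : Ā (N + 1) ≤ A z1 := le_trans (hĀm (N + 1)).2 (hAm (by rw [node_last]; linarith))
    refine intervalIntegral.integral_mono_interval h1 (hAm hz) h0 ?_ (hi _ _)
    filter_upwards [ae_restrict_mem measurableSet_Ioc] with t ht
    exact hs0 t ⟨(hĀ01 (N + 1)).1.trans ht.1.le, ht.2.trans (hĀ01 0).2⟩
  -- assembly
  have hsA := Finset.sum_le_sum (s := Finset.range (N + 1)) fun j _ => hstepA j
  simp only [Finset.sum_add_distrib] at hsA
  have hsB := Finset.sum_le_sum (s := Finset.range (N + 1)) fun j _ => hstepB j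
  rw [hsumB] at hsB
  simp only [add_mul, Finset.sum_add_distrib, ← Finset.mul_sum] at hsB
  have hAsum : ∑ j ∈ Finset.range (N + 1), aSeg N j A ≤ 1 := by
    rw [show ∑ j ∈ Finset.range (N + 1), aSeg N j A = Ā 0 - Ā (N + 1) from
      Finset.sum_range_sub' Ā _]
    linarith [(hĀ01 0).2, (hĀ01 (N + 1)).1]
  have hD8 : ∑ j ∈ Finset.range (N + 1), 2 * H * (∑ k ∈ Finset.range (n + 1), dP j k) ≤
      16 * ((n : ℝ) + 1) * H := by
    rw [← Finset.mul_sum, Finset.sum_comm]
    have := Finset.sum_le_sum (s := Finset.range (n + 1)) fun k _ => hdPsum k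
    simp only [Finset.sum_const, Finset.card_range, nsmul_eq_mul] at this
    push_cast at this
    have := mul_le_mul_of_nonneg_left this (by linarith : 0 ≤ 2 * H)
    linarith
  have hω2 : ∑ j ∈ Finset.range (N + 1), 2 * ω * H ≤ 2 * ω := by
    have : ((N : ℝ) + 1) * H ≤ 1 := by have := hh_mul N; linarith
    simp only [Finset.sum_const, Finset.card_range, nsmul_eq_mul]
    push_cast
    nlinarith
  have hdA : ∑ j ∈ Finset.range (N + 1), 2 * H * ((A (node N j) - A (node N j + 2 * H)) / δ) ≤
      4 / δ * H := by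
    rw [← Finset.mul_sum, ← Finset.sum_div]
    have := mul_le_mul_of_nonneg_left (div_le_div_of_nonneg_right (sum_drop_le hA01 N) hδ.le)
      (by linarith : 0 ≤ 2 * H)
    calc _ ≤ 2 * H * (2 / δ) := this
      _ = _ := by ring
  have hωA := mul_le_mul_of_nonneg_left hAsum hω.le
  simp only [Finset.sum_add_distrib, mul_sub, Finset.sum_sub_distrib] at hbox'
  have : K * H = 16 * ((n : ℝ) + 1) * H + 4 / δ * H + 8 * H := by rw [hKdef]; ring
  linarith

/-- **Slicing inequality.** For a reduced set, any axis order `e`, and continuous weights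
`c, s ≥ 0` with `c² + s² ≤ 1`: the weighted slice lengths plus the weighted drop of slice area are
at most `M`. -/
theorem slice_le {c s : ℝ → ℝ} (hc : Continuous c) (hs : Continuous s)
    (hc0 : ∀ t ∈ Icc (0 : ℝ) 1, 0 ≤ c t) (hs0 : ∀ t ∈ Icc (0 : ℝ) 1, 0 ≤ s t)
    (hcs : ∀ t ∈ Icc (0 : ℝ) 1, c t ^ 2 + s t ^ 2 ≤ 1) {z0 z1 : ℝ} (hz0 : z0 ∈ Ioo (0 : ℝ) 1)
    (hz1 : z1 ∈ Ioo (0 : ℝ) 1) (hz : z0 ≤ z1) :
    (∫ z in Ioo (0 : ℝ) 1, c (area (height D e) z) * len fun x => height D e x z) +
      (∫ t in area (height D e) z1..area (height D e) z0, s t) ≤ M := by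
  set S := ∫ t in area (height D e) z1..area (height D e) z0, s t
  set G : ℕ → ℝ → ℝ := fun n z =>
    c (area (height D e) z) * ⨅ m, L (n + m) fun x => height D e x z with hG
  have hcA : Measurable fun z => c (area (height D e) z) :=
    hc.measurable.comp (antitone_area hD e).measurable
  have hc1 : ∀ t ∈ Icc (0 : ℝ) 1, c t ≤ 1 := fun t ht => by nlinarith [hcs t ht, sq_nonneg (s t)]
  have hGm : ∀ n, Measurable (G n) := fun n =>
    hcA.mul (Measurable.iInf fun m => measurable_L_slice hD e (n + m))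
  have hG2 : ∀ n z, |G n z| ≤ 2 := fun n z => by
    have h0 := hc0 _ (area_mem (D := D) e z)
    have h1 := tail_nonneg n fun x => height D e x z
    rw [abs_of_nonneg (mul_nonneg h0 h1)]
    exact (mul_le_of_le_one_left h1 (hc1 _ (area_mem e z))).trans
      ((ciInf_le (bddBelow_L n _) 0).trans (L_le_two (height_anti_fst hD e z) (slice_mem e z) _))
  have hlim : Tendsto (fun n => ∫ z in Ioo (0 : ℝ) 1, G n z) atTop
      (𝓝 (∫ z in Ioo (0 : ℝ) 1, c (area (height D e) z) * len fun x => height D e x z)) :=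
    tendsto_integral_of_dominated_convergence (fun _ => 2) (fun n => (hGm n).aestronglyMeasurable)
      (integrable_const _) (fun n => Eventually.of_forall (hG2 n))
      (Eventually.of_forall fun z =>
        (tendsto_tail (height_anti_fst hD e z) (slice_mem e z)).const_mul _)
  have hub : Tendsto (fun n => M + 4 * hh n - S) atTop (𝓝 (M + 4 * 0 - S)) :=
    (tendsto_const_nhds.add (tendsto_hh.const_mul 4)).sub tendsto_const_nhds
  have hle : ∀ n, ∫ z in Ioo (0 : ℝ) 1, G n z ≤ M + 4 * hh n - S := fun n => by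
    have hn := slice_le_fixed hD e n hc hs hc0 hs0 hcs hz0 hz1 hz
    have : ∫ z in Ioo (0 : ℝ) 1, G n z ≤
        ∫ z in Ioo (0 : ℝ) 1, c (area (height D e) z) * L n fun x => height D e x z := by
      refine integral_mono ((integrable_const (2 : ℝ)).mono' (hGm n).aestronglyMeasurable
        (Eventually.of_forall (hG2 n))) ((integrable_const (2 : ℝ)).mono'
        (hcA.mul (measurable_L_slice hD e n)).aestronglyMeasurable
        (Eventually.of_forall fun z => ?_)) fun z => ?_
      · rw [Real.norm_eq_abs,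
          abs_of_nonneg (mul_nonneg (hc0 _ (area_mem e z)) (L_nonneg _ _))]
        exact (mul_le_of_le_one_left (L_nonneg _ _) (hc1 _ (area_mem e z))).trans
          (L_le_two (height_anti_fst hD e z) (slice_mem e z) _)
      · refine mul_le_mul_of_nonneg_left ?_ (hc0 _ (area_mem e z))
        simpa using ciInf_le (bddBelow_L n fun x => height D e x z) 0
    linarith
  have := le_of_tendsto_of_tendsto' hlim hub hle
  linarith

/-- The slicing inequality with the limiting slice areas at the two faces. -/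
theorem slice_le_limits {c s : ℝ → ℝ} (hc : Continuous c) (hs : Continuous s)
    (hc0 : ∀ t ∈ Icc (0 : ℝ) 1, 0 ≤ c t) (hs0 : ∀ t ∈ Icc (0 : ℝ) 1, 0 ≤ s t)
    (hcs : ∀ t ∈ Icc (0 : ℝ) 1, c t ^ 2 + s t ^ 2 ≤ 1) {a A0 : ℝ}
    (h0 : Tendsto (area (height D e)) (𝓝[>] 0) (𝓝 A0))
    (h1 : Tendsto (area (height D e)) (𝓝[<] 1) (𝓝 a)) :
    (∫ z in Ioo (0 : ℝ) 1, c (area (height D e) z) * len fun x => height D e x z) +
      (∫ t in a..A0, s t) ≤ M := by
  have hP : Continuous fun u => ∫ t in (0 : ℝ)..u, s t :=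
    intervalIntegral.continuous_primitive (fun u v => hs.intervalIntegrable u v) 0
  have hsplit : ∀ u v, (∫ t in u..v, s t) = (∫ t in (0 : ℝ)..v, s t) - ∫ t in (0 : ℝ)..u, s t :=
    fun u v => (intervalIntegral.integral_interval_sub_left (hs.intervalIntegrable _ _)
      (hs.intervalIntegrable _ _)).symm
  set z : ℕ → ℝ := fun k => 1 / ((k : ℝ) + 2) with hz
  have hzlim : Tendsto z atTop (𝓝 0) :=
    (tendsto_natCast_atTop_atTop.atTop_add tendsto_const_nhds).const_div_atTop 1
  have hzpos : ∀ k, 0 < z k := fun k => by simp only [hz]; positivity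
  have hzhalf : ∀ k, z k ≤ 1 / 2 := fun k => by
    simp only [hz]
    exact one_div_le_one_div_of_le two_pos (le_add_of_nonneg_left k.cast_nonneg)
  have l0 : Tendsto (fun k => area (height D e) (z k)) atTop (𝓝 A0) :=
    h0.comp (tendsto_nhdsWithin_iff.2 ⟨hzlim, Eventually.of_forall hzpos⟩)
  have l1 : Tendsto (fun k => area (height D e) (1 - z k)) atTop (𝓝 a) :=
    h1.comp (tendsto_nhdsWithin_iff.2 ⟨by simpa using hzlim.const_sub 1,
      Eventually.of_forall fun k => by simp only [mem_Iio]; linarith [hzpos k]⟩)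
  have hlim := ((hP.tendsto A0).comp l0).sub ((hP.tendsto a).comp l1)
  rw [← hsplit] at hlim
  refine le_of_tendsto (tendsto_const_nhds.add hlim) (Eventually.of_forall fun k => ?_)
  have := slice_le hD e hc hs hc0 hs0 hcs (z0 := z k) (z1 := 1 - z k)
    ⟨hzpos k, by linarith [hzhalf k]⟩ ⟨by linarith [hzhalf k], by linarith [hzpos k]⟩
    (by linarith [hzhalf k])
  simp only [Function.comp, ← hsplit]
  exact this

end

end Vale.Agent.P232.Slicing
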