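import Vale.Agent.P232.Slicing.Kernel

/-!
Length of the relative boundary of a planar down set `{y < f x}` in the unit square, as a limit
inferior of explicit test-field sums, and its comparison with calibration fluxes.
-/

open MeasureTheory Set Filter Topology

namespace Vale.Agent.P232.Slicing

/-- Indicator of the interior heights `0 < t < 1`. -/
noncomputable def inI (t : ℝ) : ℝ := if 0 < t ∧ t < 1 then 1 else 0

/-- Drop of the averaged height across the `k`-th bump. -/
noncomputable def aSeg (n k : ℕ) (f : ℝ → ℝ) : ℝ :=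
  av (node n k) (hh n) f - av (node n (k + 1)) (hh n) f

/-- Interior width of the `k`-th bump. -/
noncomputable def bSeg (n k : ℕ) (f : ℝ → ℝ) : ℝ := ∫ x, pu n k x * inI (f x)

/-- Length of the `n`-th test polygon. -/
noncomputable def L (n : ℕ) (f : ℝ → ℝ) : ℝ :=
  ∑ k ∈ Finset.range (n + 1), Real.sqrt (aSeg n k f ^ 2 + bSeg n k f ^ 2)

/-- Relative boundary length of the slice `{y < f x}` in the open unit square. -/
noncomputable def len (f : ℝ → ℝ) : ℝ := ⨆ n, ⨅ m, L (n + m) f

theorem inI_nonneg (t : ℝ) : 0 ≤ inI t := by unfold inI; split_ifs <;> norm_num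

theorem inI_le_one (t : ℝ) : inI t ≤ 1 := by unfold inI; split_ifs <;> norm_num

theorem abs_inI_le (t : ℝ) : |inI t| ≤ 1 := by
  rw [abs_of_nonneg (inI_nonneg t)]; exact inI_le_one t

theorem measurable_inI : Measurable inI :=
  Measurable.ite (measurableSet_Ioi.inter measurableSet_Iio) measurable_const measurable_const

theorem sqrt_le_add {a b : ℝ} (ha : 0 ≤ a) (hb : 0 ≤ b) : Real.sqrt (a ^ 2 + b ^ 2) ≤ a + b := by
  rw [Real.sqrt_le_left (by linarith)]
  nlinarith [mul_nonneg ha hb]

theorem pairing_le {p q a b : ℝ} (h : p ^ 2 + q ^ 2 ≤ 1) :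
    p * b + q * a ≤ Real.sqrt (a ^ 2 + b ^ 2) := by
  refine Real.le_sqrt_of_sq_le ?_
  nlinarith [sq_nonneg (p * a - q * b), mul_nonneg (sub_nonneg.2 h) (add_nonneg (sq_nonneg a)
    (sq_nonneg b))]

section
variable {f : ℝ → ℝ} (hf : Antitone f) (hf01 : ∀ x, f x ∈ Icc (0 : ℝ) 1)

omit hf in
include hf01 in
theorem abs_le_one_of_mem (x : ℝ) : |f x| ≤ 1 :=
  abs_le.2 ⟨by linarith [(hf01 x).1], (hf01 x).2⟩

include hf hf01

theorem aSeg_nonneg (n k : ℕ) : 0 ≤ aSeg n k f := by
  rw [aSeg, node_succ, sub_nonneg]
  exact av_shift_le (hh_pos n) hf (abs_le_one_of_mem hf01) _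

omit hf01 in
theorem bSeg_mem (n k : ℕ) : bSeg n k f ∈ Icc 0 (hh n) := by
  constructor
  · exact integral_nonneg (fun x => mul_nonneg (pu_nonneg n k x) (inI_nonneg _))
  · rw [← integral_pu n k]
    refine integral_mono (integrable_mul_bdd (integrable_pu n k)
      (measurable_inI.comp hf.measurable).aestronglyMeasurable (fun x => abs_inI_le _))
      (integrable_pu n k) (fun x => ?_)
    exact mul_le_of_le_one_right (pu_nonneg n k x) (inI_le_one _)

theorem L_le_two (n : ℕ) : L n f ≤ 2 := by
  have h1 : L n f ≤ ∑ k ∈ Finset.range (n + 1), (aSeg n k f + hh n) := by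
    refine Finset.sum_le_sum (fun k _ => ?_)
    exact (sqrt_le_add (aSeg_nonneg hf hf01 n k) (bSeg_mem hf n k).1).trans
      (by linarith [(bSeg_mem hf n k).2])
  have h2 : ∑ k ∈ Finset.range (n + 1), aSeg n k f =
      av (node n 0) (hh n) f - av (node n (n + 1)) (hh n) f :=
    Finset.sum_range_sub' (fun k => av (node n k) (hh n) f) (n + 1)
  have h3 := (av_antitone_mem (hh_pos n) hf (abs_le_one_of_mem hf01) (node n 0)).2
  have h4 := (av_antitone_mem (hh_pos n) hf (abs_le_one_of_mem hf01) (node n (n + 1))).1
  have h5 := (hf01 (node n 0)).2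
  have h6 := (hf01 (node n (n + 1) + hh n)).1
  have h7 : ((n : ℝ) + 1) * hh n ≤ 1 := by
    have := hh_mul n; have := hh_pos n; linarith
  rw [Finset.sum_add_distrib, h2, Finset.sum_const, Finset.card_range, nsmul_eq_mul] at h1
  push_cast at h1
  linarith

omit hf hf01 in
theorem L_nonneg (n : ℕ) (f : ℝ → ℝ) : 0 ≤ L n f :=
  Finset.sum_nonneg (fun _ _ => Real.sqrt_nonneg _)

omit hf hf01 in
theorem bddBelow_L (n : ℕ) (f : ℝ → ℝ) : BddBelow (range fun m => L (n + m) f) :=
  ⟨0, by rintro _ ⟨m, rfl⟩; exact L_nonneg _ f⟩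

omit hf hf01 in
theorem tail_nonneg (n : ℕ) (f : ℝ → ℝ) : 0 ≤ ⨅ m, L (n + m) f :=
  le_ciInf (fun _ => L_nonneg _ f)

theorem bddAbove_tail : BddAbove (range fun n => ⨅ m, L (n + m) f) :=
  ⟨2, by rintro _ ⟨n, rfl⟩; exact (ciInf_le (bddBelow_L n f) 0).trans (L_le_two hf hf01 _)⟩

theorem len_le_two : len f ≤ 2 :=
  ciSup_le (fun n => (ciInf_le (bddBelow_L n f) 0).trans (L_le_two hf hf01 _))

theorem len_nonneg : 0 ≤ len f :=
  (tail_nonneg 0 f).trans (le_ciSup (bddAbove_tail hf hf01) 0)

omit hf hf01 in
theorem monotone_tail (f : ℝ → ℝ) : Monotone fun n => ⨅ m, L (n + m) f := by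
  intro p q hpq
  refine le_ciInf (fun m => ?_)
  obtain ⟨d, rfl⟩ := Nat.exists_eq_add_of_le hpq
  rw [add_assoc]
  exact ciInf_le (bddBelow_L p f) (d + m)

theorem tendsto_tail : Tendsto (fun n => ⨅ m, L (n + m) f) atTop (𝓝 (len f)) :=
  tendsto_atTop_ciSup (monotone_tail f) (bddAbove_tail hf hf01)

/-- A lower bound valid eventually, up to `ε`, bounds the length. -/
theorem le_len_of_eventually {c : ℝ} (h : ∀ ε > 0, ∀ᶠ n in atTop, c - ε ≤ L n f) :
    c ≤ len f := by
  refine le_of_forall_pos_le_add (fun ε hε => ?_)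
  obtain ⟨N, hN⟩ := eventually_atTop.1 (h ε hε)
  have h1 : c - ε ≤ ⨅ m, L (N + m) f := le_ciInf (fun m => hN _ (Nat.le_add_right N m))
  have h2 : (⨅ m, L (N + m) f) ≤ len f := le_ciSup (bddAbove_tail hf hf01) N
  linarith

/-- If `T n ≤ L n f` and `T n → c` then `c ≤ len f`. -/
theorem le_len_of_tendsto {T : ℕ → ℝ} {c : ℝ} (hT : Tendsto T atTop (𝓝 c))
    (hle : ∀ n, T n ≤ L n f) : c ≤ len f := by
  refine le_len_of_eventually hf hf01 (fun ε hε => ?_)
  filter_upwards [hT.eventually (eventually_gt_nhds (by linarith : c - ε < c))] with n hn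
  linarith [hle n]

/-- **Flux comparison.** A calibration `(b(x), a(x))` of length at most one has flux through the
relative boundary of the slice at most `len f`. -/
theorem flux_le_len {a b g : ℝ → ℝ} (ha : Continuous a)
    (hab : ∀ x ∈ Icc (0 : ℝ) 1, a x ^ 2 + b x ^ 2 ≤ 1)
    (hg : IntervalIntegrable g volume 0 1)
    (hb : ∀ x ∈ Icc (0 : ℝ) 1, b x = b 0 + ∫ t in (0 : ℝ)..x, g t)
    {Y u : ℝ} (hY : Tendsto f (𝓝[>] 0) (𝓝 Y)) (hu : Tendsto f (𝓝[<] 1) (𝓝 u)) :
    (∫ x in (0 : ℝ)..1, a x * inI (f x)) + (∫ x in (0 : ℝ)..1, g x * f x)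
      + b 0 * Y - b 1 * u ≤ len f := by
  have habs : ∀ x, |f x| ≤ 1 := abs_le_one_of_mem hf01
  have hg' : IntegrableOn g (Icc 0 1) := (intervalIntegrable_iff_integrableOn_Icc_of_le zero_le_one).1 hg
  have hnode : ∀ n k, k ≤ n + 1 → node n k ∈ Icc (0 : ℝ) 1 := fun n k hk =>
    ⟨(node_pos n k).le, by linarith [node_le_of_le n hk, hh_pos n]⟩
  have hbc : ContinuousOn b (Icc 0 1) := by
    have := intervalIntegral.continuousOn_primitive_interval (μ := volume) (f := g) (a := 0) (b := 1)
      (by rwa [uIcc_of_le zero_le_one])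
    rw [uIcc_of_le zero_le_one] at this
    exact (continuousOn_const.add this).congr hb
  -- the test sums
  set T1 : ℕ → ℝ := fun n => ∫ x in (0 : ℝ)..1,
    (∑ k ∈ Finset.range (n + 1), a (node n k) * pu n k x) * inI (f x) with hT1
  set S : ℕ → ℝ → ℝ := fun n x => ∑ k ∈ Finset.range (n + 1), av (node n (k + 1)) (hh n) f *
    ((Iic (node n (k + 1))).indicator 1 x - (Iic (node n k)).indicator 1 x) with hS
  set T2 : ℕ → ℝ := fun n => b (node n 0) * av (node n 0) (hh n) f
    - b (node n (n + 1)) * av (node n (n + 1)) (hh n) f + ∫ x in (0 : ℝ)..1, g x * S n x with hT2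
  -- exact identities with the samples
  have hm1 : Measurable fun x => inI (f x) := measurable_inI.comp hf.measurable
  have hid1 : ∀ n, T1 n = ∑ k ∈ Finset.range (n + 1), a (node n k) * bSeg n k f := by
    intro n
    have hi : ∀ k, Integrable fun x => a (node n k) * pu n k x * inI (f x) := fun k =>
      integrable_mul_bdd ((integrable_pu n k).const_mul _) hm1.aestronglyMeasurable
        (fun x => abs_inI_le _)
    simp only [hT1, Finset.sum_mul]
    rw [intervalIntegral.integral_finsetSum (fun k _ => (hi k).intervalIntegrable)]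
    refine Finset.sum_congr rfl (fun k hk => ?_)
    have hk' : k ≤ n := Nat.lt_succ_iff.1 (Finset.mem_range.1 hk)
    rw [intervalIntegral.integral_of_le zero_le_one,
      setIntegral_eq_integral_of_forall_compl_eq_zero, bSeg, ← integral_const_mul]
    · exact integral_congr_ae (Eventually.of_forall fun x => by ring)
    · intro x hx
      have : pu n k x = 0 := by
        by_contra hne
        exact hx (Ioo_subset_Ioc_self (pu_supp_subset n hk' (Ioo_subset_Icc_self (pu_support n k hne))))
      simp [this]
  have hmono : ∀ n k, node n k ≤ node n (k + 1) := fun n k => by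
    rw [node_succ]; linarith [hh_pos n]
  have hgint : ∀ n k, k ≤ n → ∫ x in (0 : ℝ)..1, g x *
      ((Iic (node n (k + 1))).indicator 1 x - (Iic (node n k)).indicator 1 x) =
      b (node n (k + 1)) - b (node n k) := by
    intro n k hk
    have hone : ∀ c ∈ Icc (0 : ℝ) 1, ∫ x in (0 : ℝ)..1, g x * (Iic c).indicator 1 x = b c - b 0 := by
      intro c hc
      rw [hb c hc, add_sub_cancel_left, intervalIntegral.integral_of_le zero_le_one,
        intervalIntegral.integral_of_le hc.1]
      have : ∀ x, g x * (Iic c).indicator 1 x = (Iic c).indicator g x := fun x => by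
        by_cases hx : x ∈ Iic c <;> simp [hx]
      simp only [this]
      rw [setIntegral_indicator measurableSet_Iic, Ioc_inter_Iic, min_eq_right hc.2]
    have hint : ∀ c, IntervalIntegrable (fun x => g x * (Iic c).indicator 1 x) volume 0 1 := by
      intro c
      rw [intervalIntegrable_iff_integrableOn_Icc_of_le zero_le_one]
      refine integrable_mul_bdd hg' ((measurable_const.indicator measurableSet_Iic).aestronglyMeasurable)
        (C := 1) (fun x => ?_)
      by_cases hx : x ∈ Iic c <;> simp [hx]
    simp only [mul_sub]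
    rw [intervalIntegral.integral_sub (hint _) (hint _), hone _ (hnode n (k + 1) (by omega)),
      hone _ (hnode n k (by omega))]
    ring
  have hid2 : ∀ n, T2 n = ∑ k ∈ Finset.range (n + 1), b (node n k) * aSeg n k f := by
    intro n
    have hi : ∀ k, IntervalIntegrable (fun x => g x * (av (node n (k + 1)) (hh n) f *
        ((Iic (node n (k + 1))).indicator 1 x - (Iic (node n k)).indicator 1 x))) volume 0 1 := by
      intro k
      rw [intervalIntegrable_iff_integrableOn_Icc_of_le zero_le_one]
      refine integrable_mul_bdd hg' (((measurable_const.indicator measurableSet_Iic).sub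
        (measurable_const.indicator measurableSet_Iic)).const_mul _).aestronglyMeasurable
        (C := |av (node n (k + 1)) (hh n) f| * 2) (fun x => ?_)
      rw [abs_mul]
      refine mul_le_mul_of_nonneg_left ?_ (abs_nonneg _)
      by_cases h1 : x ∈ Iic (node n (k + 1)) <;> by_cases h2 : x ∈ Iic (node n k) <;> simp [h1, h2]
    simp only [hT2, hS, Finset.mul_sum]
    rw [intervalIntegral.integral_finsetSum (fun k _ => hi k)]
    have : ∀ k ∈ Finset.range (n + 1), ∫ x in (0 : ℝ)..1, g x * (av (node n (k + 1)) (hh n) f *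
        ((Iic (node n (k + 1))).indicator 1 x - (Iic (node n k)).indicator 1 x)) =
        b (node n k) * aSeg n k f - (b (node n k) * av (node n k) (hh n) f
          - b (node n (k + 1)) * av (node n (k + 1)) (hh n) f) := by
      intro k hk
      simp only [mul_left_comm (g _)]
      rw [intervalIntegral.integral_const_mul, hgint n k (Nat.lt_succ_iff.1 (Finset.mem_range.1 hk)),
        aSeg]
      ring
    rw [Finset.sum_congr rfl this, Finset.sum_sub_distrib,
      Finset.sum_range_sub' (fun k => b (node n k) * av (node n k) (hh n) f) (n + 1)]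
    ring
  have hle : ∀ n, T1 n + T2 n ≤ L n f := by
    intro n
    rw [hid1, hid2, ← Finset.sum_add_distrib]
    refine Finset.sum_le_sum (fun k hk => ?_)
    exact pairing_le (hab _ (hnode n k (by have := Finset.mem_range.1 hk; omega)))
  -- limits
  have hevent : ∀ δ > (0 : ℝ), ∀ᶠ n in atTop, 3 * hh n < δ := fun δ hδ =>
    (tendsto_hh.const_mul 3).eventually (eventually_lt_nhds (by simpa using hδ))
  have hlim1 : Tendsto T1 atTop (𝓝 (∫ x in (0 : ℝ)..1, a x * inI (f x))) := by
    obtain ⟨C, hC⟩ : ∃ C, ∀ x ∈ Icc (0 : ℝ) 1, |a x| ≤ C := ⟨1, fun x hx => abs_le.2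
      ⟨by nlinarith [hab x hx, sq_nonneg (b x)], by nlinarith [hab x hx, sq_nonneg (b x)]⟩⟩
    have hC0 : 0 ≤ C := (abs_nonneg _).trans (hC 0 (left_mem_Icc.2 zero_le_one))
    refine intervalIntegral.tendsto_integral_filter_of_dominated_convergence (fun _ => C)
      (Eventually.of_forall fun n => ?_) (Eventually.of_forall fun n => ?_)
      intervalIntegrable_const ?_
    · exact ((continuous_finsetSum _ (fun k _ => (continuous_pu n k).const_mul _)).measurable.mul
        hm1).aestronglyMeasurable
    · refine Eventually.of_forall fun x _ => ?_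
      rw [Real.norm_eq_abs, abs_mul]
      calc |∑ k ∈ Finset.range (n + 1), a (node n k) * pu n k x| * |inI (f x)|
          ≤ |∑ k ∈ Finset.range (n + 1), a (node n k) * pu n k x| :=
            mul_le_of_le_one_right (abs_nonneg _) (abs_inI_le _)
        _ ≤ ∑ k ∈ Finset.range (n + 1), C * pu n k x := by
            refine (Finset.abs_sum_le_sum_abs _ _).trans (Finset.sum_le_sum fun k hk => ?_)
            rw [abs_mul, abs_of_nonneg (pu_nonneg n k x)]
            exact mul_le_mul_of_nonneg_right
              (hC _ (hnode n k (by have := Finset.mem_range.1 hk; omega))) (pu_nonneg n k x)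
        _ ≤ C := by
            rw [← Finset.mul_sum]
            exact mul_le_of_le_one_right hC0 (tot_le_one n x)
    · have : ∀ᵐ x ∂(volume : Measure ℝ), x ≠ 1 := Measure.ae_ne volume 1
      filter_upwards [this] with x hx1 hx
      rw [uIoc_of_le zero_le_one] at hx
      have hx' : x < 1 := lt_of_le_of_ne hx.2 hx1
      refine Tendsto.mul_const _ ?_
      rw [Metric.tendsto_atTop]
      intro ε hε
      obtain ⟨δ, hδ, hcont⟩ := Metric.continuousAt_iff.1 (ha.continuousAt (x := x)) (ε / 2) (half_pos hε)
      obtain ⟨N, hN⟩ := eventually_atTop.1 ((hevent δ hδ).and ((hevent x hx.1).and (hevent (1 - x) (by linarith))))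
      refine ⟨N, fun n hn => ?_⟩
      obtain ⟨h1, h2, h3⟩ := hN n hn
      have hp := hh_pos n
      have ht : tot n x = 1 := tot_eq_one n ⟨by linarith, by linarith⟩
      have : (∑ k ∈ Finset.range (n + 1), a (node n k) * pu n k x) - a x =
          ∑ k ∈ Finset.range (n + 1), (a (node n k) - a x) * pu n k x := by
        simp only [sub_mul, Finset.sum_sub_distrib, ← Finset.mul_sum]
        rw [show ∑ k ∈ Finset.range (n + 1), pu n k x = 1 from ht, mul_one]
      rw [Real.dist_eq, this]
      refine lt_of_le_of_lt (b := ∑ k ∈ Finset.range (n + 1), ε / 2 * pu n k x)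
        ((Finset.abs_sum_le_sum_abs _ _).trans (Finset.sum_le_sum fun k _ => ?_)) ?_
      · rw [abs_mul, abs_of_nonneg (pu_nonneg n k x)]
        by_cases hz : pu n k x = 0
        · simp [hz]
        · have hs := pu_support n k hz
          refine mul_le_mul_of_nonneg_right (le_of_lt ?_) (pu_nonneg n k x)
          have := hcont (x := node n k) (by rw [Real.dist_eq, abs_lt]; constructor <;> linarith [hs.1, hs.2])
          rwa [Real.dist_eq] at this
      · rw [← Finset.mul_sum, show ∑ k ∈ Finset.range (n + 1), pu n k x = 1 from ht]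
        linarith
  have hsumind : ∀ n x, (∑ k ∈ Finset.range (n + 1),
      ((Iic (node n (k + 1))).indicator 1 x - (Iic (node n k)).indicator (1 : ℝ → ℝ) x)) =
      (Iic (node n (n + 1))).indicator 1 x - (Iic (node n 0)).indicator 1 x := fun n x =>
    Finset.sum_range_sub (fun k => (Iic (node n k)).indicator (1 : ℝ → ℝ) x) (n + 1)
  have hindnn : ∀ n k x, 0 ≤ (Iic (node n (k + 1))).indicator 1 x -
      (Iic (node n k)).indicator (1 : ℝ → ℝ) x := fun n k x => by
    refine sub_nonneg.2 (indicator_le_indicator_of_subset (Iic_subset_Iic.2 (hmono n k)) (fun _ => zero_le_one) x)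
  have hlim2 : Tendsto T2 atTop (𝓝 (b 0 * Y - b 1 * u + ∫ x in (0 : ℝ)..1, g x * f x)) := by
    have hn0 : Tendsto (fun n => node n 0) atTop (𝓝[Icc 0 1] 0) := by
      refine tendsto_nhdsWithin_iff.2 ⟨?_, Eventually.of_forall fun n => hnode n 0 (by omega)⟩
      simpa [node_zero] using tendsto_hh
    have hn1 : Tendsto (fun n => node n (n + 1)) atTop (𝓝[Icc 0 1] 1) := by
      refine tendsto_nhdsWithin_iff.2 ⟨?_, Eventually.of_forall fun n => hnode n (n + 1) le_rfl⟩
      simpa [node_last] using (tendsto_hh.const_mul 2).const_sub 1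
    have ha0 : Tendsto (fun n => av (node n 0) (hh n) f) atTop (𝓝 Y) := by
      have k1 : Tendsto (fun n => node n 0) atTop (𝓝[>] 0) :=
        tendsto_nhdsWithin_iff.2 ⟨tendsto_nhds_of_tendsto_nhdsWithin hn0,
          Eventually.of_forall fun n => node_pos n 0⟩
      have k2 : Tendsto (fun n => node n 0 + hh n) atTop (𝓝[>] 0) :=
        tendsto_nhdsWithin_iff.2 ⟨by simpa using (tendsto_nhds_of_tendsto_nhdsWithin hn0).add tendsto_hh,
          Eventually.of_forall fun n => add_pos (node_pos n 0) (hh_pos n)⟩
      exact tendsto_of_tendsto_of_tendsto_of_le_of_le (hY.comp k2) (hY.comp k1)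
        (fun n => (av_antitone_mem (hh_pos n) hf habs _).1) (fun n => (av_antitone_mem (hh_pos n) hf habs _).2)
    have ha1 : Tendsto (fun n => av (node n (n + 1)) (hh n) f) atTop (𝓝 u) := by
      have k1 : Tendsto (fun n => node n (n + 1)) atTop (𝓝[<] 1) :=
        tendsto_nhdsWithin_iff.2 ⟨tendsto_nhds_of_tendsto_nhdsWithin hn1,
          Eventually.of_forall fun n => by
            have := hh_pos n; simp only [mem_Iio, node_last]; linarith⟩
      have k2 : Tendsto (fun n => node n (n + 1) + hh n) atTop (𝓝[<] 1) :=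
        tendsto_nhdsWithin_iff.2 ⟨by simpa using (tendsto_nhds_of_tendsto_nhdsWithin hn1).add tendsto_hh,
          Eventually.of_forall fun n => by
            have := hh_pos n; simp only [mem_Iio, node_last]; linarith⟩
      exact tendsto_of_tendsto_of_tendsto_of_le_of_le (hu.comp k2) (hu.comp k1)
        (fun n => (av_antitone_mem (hh_pos n) hf habs _).1) (fun n => (av_antitone_mem (hh_pos n) hf habs _).2)
    have hint : Tendsto (fun n => ∫ x in (0 : ℝ)..1, g x * S n x) atTop
        (𝓝 (∫ x in (0 : ℝ)..1, g x * f x)) := by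
      refine intervalIntegral.tendsto_integral_filter_of_dominated_convergence (fun x => |g x|)
        (Eventually.of_forall fun n => ?_) (Eventually.of_forall fun n => ?_) hg.norm ?_
      · rw [uIoc_of_le zero_le_one]
        exact (hg.1.aestronglyMeasurable).mul (Finset.measurable_sum _ (fun k _ =>
          (((measurable_const.indicator measurableSet_Iic).sub
            (measurable_const.indicator measurableSet_Iic)).const_mul _))).aestronglyMeasurable
      · refine Eventually.of_forall fun x _ => ?_
        rw [Real.norm_eq_abs, abs_mul]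
        refine mul_le_of_le_one_right (abs_nonneg _) ?_
        refine (Finset.abs_sum_le_sum_abs _ _).trans ?_
        calc ∑ k ∈ Finset.range (n + 1), |av (node n (k + 1)) (hh n) f *
              ((Iic (node n (k + 1))).indicator 1 x - (Iic (node n k)).indicator 1 x)|
            ≤ ∑ k ∈ Finset.range (n + 1),
              ((Iic (node n (k + 1))).indicator 1 x - (Iic (node n k)).indicator (1 : ℝ → ℝ) x) := by
              refine Finset.sum_le_sum fun k _ => ?_
              rw [abs_mul, abs_of_nonneg (hindnn n k x)]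
              refine mul_le_of_le_one_left (hindnn n k x) ?_
              have h0 := (av_antitone_mem (hh_pos n) hf habs (node n (k + 1)))
              exact abs_le.2 ⟨by linarith [h0.1, (hf01 (node n (k + 1) + hh n)).1],
                by linarith [h0.2, (hf01 (node n (k + 1))).2]⟩
          _ ≤ 1 := by
              rw [hsumind]
              by_cases h1 : x ∈ Iic (node n (n + 1)) <;> by_cases h2 : x ∈ Iic (node n 0) <;> simp [h1, h2]
      · have hc : ∀ᵐ x ∂(volume : Measure ℝ), ContinuousAt f x := by
          have := (hf.countable_not_continuousAt).ae_notMem (volume : Measure ℝ)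
          filter_upwards [this] with x hx
          simpa using hx
        filter_upwards [hc, Measure.ae_ne volume (1 : ℝ)] with x hcx hx1 hx
        rw [uIoc_of_le zero_le_one] at hx
        have hx' : x < 1 := lt_of_le_of_ne hx.2 hx1
        refine Tendsto.const_mul _ ?_
        rw [Metric.tendsto_atTop]
        intro ε hε
        obtain ⟨δ, hδ, hcont⟩ := Metric.continuousAt_iff.1 hcx (ε / 2) (half_pos hε)
        obtain ⟨N, hN⟩ := eventually_atTop.1 ((hevent δ hδ).and ((hevent x hx.1).and (hevent (1 - x) (by linarith))))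
        refine ⟨N, fun n hn => ?_⟩
        obtain ⟨h1, h2, h3⟩ := hN n hn
        have hp := hh_pos n
        have hone : (∑ k ∈ Finset.range (n + 1),
            ((Iic (node n (k + 1))).indicator 1 x - (Iic (node n k)).indicator (1 : ℝ → ℝ) x)) = 1 := by
          rw [hsumind, indicator_of_mem (show x ∈ Iic (node n (n + 1)) by simp only [mem_Iic, node_last]; linarith),
            indicator_of_notMem (show x ∉ Iic (node n 0) by simp only [mem_Iic, node_zero]; linarith)]
          simp
        have : S n x - f x = ∑ k ∈ Finset.range (n + 1), (av (node n (k + 1)) (hh n) f - f x) *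
            ((Iic (node n (k + 1))).indicator 1 x - (Iic (node n k)).indicator 1 x) := by
          simp only [hS, sub_mul]
          rw [Finset.sum_sub_distrib, ← Finset.mul_sum, hone, mul_one]
        rw [Real.dist_eq, this]
        refine lt_of_le_of_lt (b := ∑ k ∈ Finset.range (n + 1), ε / 2 *
          ((Iic (node n (k + 1))).indicator 1 x - (Iic (node n k)).indicator 1 x))
          ((Finset.abs_sum_le_sum_abs _ _).trans (Finset.sum_le_sum fun k _ => ?_)) ?_
        · rw [abs_mul, abs_of_nonneg (hindnn n k x)]
          by_cases hk : x ∈ Ioc (node n k) (node n (k + 1))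
          · refine mul_le_mul_of_nonneg_right ?_ (hindnn n k x)
            have hclose : ∀ y ∈ Icc (node n (k + 1)) (node n (k + 1) + hh n), |f y - f x| < ε / 2 := by
              intro y hy
              have hd : dist y x < δ := by
                rw [Real.dist_eq, abs_lt]
                constructor <;> linarith [hk.1, hk.2, hy.1, hy.2, node_succ n k]
              simpa [Real.dist_eq] using hcont hd
            have hA := av_antitone_mem (hh_pos n) hf habs (node n (k + 1))
            have e1 := abs_lt.1 (hclose (node n (k + 1)) ⟨le_rfl, by linarith⟩)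
            have e2 := abs_lt.1 (hclose (node n (k + 1) + hh n) ⟨by linarith, le_rfl⟩)
            exact abs_le.2 ⟨by linarith [hA.1], by linarith [hA.2]⟩
          · have : (Iic (node n (k + 1))).indicator 1 x - (Iic (node n k)).indicator (1 : ℝ → ℝ) x = 0 := by
              simp only [mem_Ioc, not_and_or, not_lt, not_le] at hk
              rcases hk with hk | hk
              · rw [indicator_of_mem (show x ∈ Iic (node n k) from hk),
                  indicator_of_mem (show x ∈ Iic (node n (k + 1)) from hk.trans (hmono n k)), sub_self]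
              · rw [indicator_of_notMem (show x ∉ Iic (node n k) from not_le.2 ((hmono n k).trans_lt hk)),
                  indicator_of_notMem (show x ∉ Iic (node n (k + 1)) from not_le.2 hk), sub_self]
            simp [this]
        · rw [← Finset.mul_sum, hone]
          linarith
    have hb0 := (hbc 0 (left_mem_Icc.2 zero_le_one)).tendsto.comp hn0
    have hb1 := (hbc 1 (right_mem_Icc.2 zero_le_one)).tendsto.comp hn1
    exact ((hb0.mul ha0).sub (hb1.mul ha1)).add hint
  have := le_len_of_tendsto hf hf01 (hlim1.add hlim2) hle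
  linarith

end

end Vale.Agent.P232.Slicing
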