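import Vale.Agent.P232.Defs
import Vale.Agent.P232.Slicing.Len

/-!
The box inequality: separated test fields on a grid bound the relative perimeter of a reduced set
below by linear expressions in the slice data of its height function.
-/

open MeasureTheory Set Filter Topology

namespace Vale.Agent.P232.Slicing

/-- The point with coordinate `x` on axis `e 0`, `z` on axis `e 1` and `y` on axis `e 2`. -/
def pt (e : Equiv.Perm (Fin 3)) (x z y : ℝ) : R3 := fun i => ![x, z, y] (e.symm i)

/-- Projection of a real number to `[0,1]`. -/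
def cl (x : ℝ) : ℝ := max 0 (min 1 x)

/-- Height of the reduced set over the point `(x, z)` in the axis order `e`. -/
noncomputable def height (D : Set R3) (e : Equiv.Perm (Fin 3)) (x z : ℝ) : ℝ :=
  volume.real {y ∈ Ioo (0 : ℝ) 1 | pt e (cl x) (cl z) y ∈ D}

theorem cl_mem (x : ℝ) : cl x ∈ Icc (0 : ℝ) 1 :=
  ⟨le_max_left _ _, max_le zero_le_one (min_le_left _ _)⟩

theorem monotone_cl : Monotone cl := fun _ _ h => max_le_max le_rfl (min_le_min le_rfl h)

theorem cl_of_mem {x : ℝ} (hx : x ∈ Ioo (0 : ℝ) 1) : cl x = x := by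
  rw [cl, min_eq_right hx.2.le, max_eq_right hx.1.le]

theorem pt_apply (e : Equiv.Perm (Fin 3)) (X : R3) : pt e (X (e 0)) (X (e 1)) (X (e 2)) = X := by
  funext i
  obtain ⟨l, rfl⟩ := e.surjective i
  simp only [pt, Equiv.symm_apply_apply]
  fin_cases l <;> rfl

theorem pt_mem_box (e : Equiv.Perm (Fin 3)) {x z y : ℝ} (hx : x ∈ Icc (0 : ℝ) 1)
    (hz : z ∈ Icc (0 : ℝ) 1) (hy : y ∈ Icc (0 : ℝ) 1) : pt e x z y ∈ box := by
  refine ⟨fun i => ?_, fun i => ?_⟩ <;> obtain ⟨l, rfl⟩ := e.surjective i <;>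
    simp only [pt, Equiv.symm_apply_apply] <;> fin_cases l <;>
    simp [hx.1, hx.2, hy.1, hy.2, hz.1, hz.2]

theorem pt_le (e : Equiv.Perm (Fin 3)) {x x' z z' y y' : ℝ} (hx : x ≤ x') (hz : z ≤ z')
    (hy : y ≤ y') : pt e x z y ≤ pt e x' z' y' := by
  intro i
  obtain ⟨l, rfl⟩ := e.surjective i
  simp only [pt, Equiv.symm_apply_apply]
  fin_cases l <;> simpa

theorem measurable_pt (e : Equiv.Perm (Fin 3)) :
    Measurable fun p : (ℝ × ℝ) × ℝ => pt e p.1.1 p.1.2 p.2 := by
  refine measurable_pi_iff.2 (fun i => ?_)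
  obtain ⟨l, rfl⟩ := e.surjective i
  simp only [pt, Equiv.symm_apply_apply]
  fin_cases l <;> simp <;> fun_prop

theorem section_finite (D : Set R3) (e : Equiv.Perm (Fin 3)) (x z : ℝ) :
    volume {y ∈ Ioo (0 : ℝ) 1 | pt e x z y ∈ D} ≠ ⊤ :=
  ne_top_of_le_ne_top (by simp) (measure_mono (fun _ hy => hy.1 : _ ⊆ Ioo (0 : ℝ) 1))

section
variable {D : Set R3} {M : ℝ} (hD : IsReduced D M) (e : Equiv.Perm (Fin 3))
include hD

omit hD in
theorem height_mem (x z : ℝ) : height D e x z ∈ Icc (0 : ℝ) 1 := by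
  refine ⟨measureReal_nonneg, ?_⟩
  calc height D e x z ≤ volume.real (Ioo (0 : ℝ) 1) :=
        measureReal_mono (fun _ hy => hy.1) (by simp)
    _ = 1 := by simp

theorem height_anti {x x' z z' : ℝ} (hx : x ≤ x') (hz : z ≤ z') :
    height D e x' z' ≤ height D e x z :=
  measureReal_mono (fun _ hy => ⟨hy.1, hD.down _ hy.2 _
    (pt_mem_box e (cl_mem x) (cl_mem z) (Ioo_subset_Icc_self hy.1))
    (pt_le e (monotone_cl hx) (monotone_cl hz) le_rfl)⟩) (section_finite D e _ _)

theorem height_anti_fst (z : ℝ) : Antitone fun x => height D e x z :=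
  fun _ _ h => height_anti hD e h le_rfl

theorem height_anti_snd (x : ℝ) : Antitone fun z => height D e x z :=
  fun _ _ h => height_anti hD e le_rfl h

theorem measurable_height : Measurable fun p : ℝ × ℝ => height D e p.1 p.2 := by
  have hcl : Measurable cl := monotone_cl.measurable
  have hS : MeasurableSet {q : (ℝ × ℝ) × ℝ | q.2 ∈ Ioo (0 : ℝ) 1 ∧ pt e (cl q.1.1) (cl q.1.2) q.2 ∈ D} :=
    (measurable_snd measurableSet_Ioo).inter
      (((measurable_pt e).comp (g := fun p : (ℝ × ℝ) × ℝ => pt e p.1.1 p.1.2 p.2)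
        (f := fun q : (ℝ × ℝ) × ℝ => ((cl q.1.1, cl q.1.2), q.2)) (by fun_prop)) hD.measurable)
  exact (measurable_measure_prodMk_left (ν := volume) hS).ennreal_toReal

theorem mem_of_lt_height {x z y : ℝ} (hx : x ∈ Ioo (0 : ℝ) 1) (hz : z ∈ Ioo (0 : ℝ) 1)
    (hy : y ∈ Ioo (0 : ℝ) 1) (h : y < height D e x z) : pt e x z y ∈ D := by
  by_contra hn
  have hsub : {t ∈ Ioo (0 : ℝ) 1 | pt e (cl x) (cl z) t ∈ D} ⊆ Ioo 0 y := by
    rintro t ⟨ht, htD⟩
    rw [cl_of_mem hx, cl_of_mem hz] at htD
    refine ⟨ht.1, not_le.1 (fun hle => hn (hD.down _ htD _ ?_ (pt_le e le_rfl le_rfl hle)))⟩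
    exact pt_mem_box e (Ioo_subset_Icc_self hx) (Ioo_subset_Icc_self hz) (Ioo_subset_Icc_self hy)
  have : height D e x z ≤ y := (measureReal_mono hsub (by simp)).trans (by simp [hy.1.le])
  linarith

theorem notMem_of_height_lt {x z y : ℝ} (hx : x ∈ Ioo (0 : ℝ) 1) (hz : z ∈ Ioo (0 : ℝ) 1)
    (hy : y ∈ Ioo (0 : ℝ) 1) (h : height D e x z < y) : pt e x z y ∉ D := by
  intro hyD
  have hsub : Ioo 0 y ⊆ {t ∈ Ioo (0 : ℝ) 1 | pt e (cl x) (cl z) t ∈ D} := by
    intro t ht
    have ht' : t ∈ Ioo (0 : ℝ) 1 := ⟨ht.1, ht.2.trans hy.2⟩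
    refine ⟨ht', ?_⟩
    rw [cl_of_mem hx, cl_of_mem hz]
    exact hD.down _ hyD _ (pt_mem_box e (Ioo_subset_Icc_self hx) (Ioo_subset_Icc_self hz)
      (Ioo_subset_Icc_self ht')) (pt_le e le_rfl le_rfl ht.2.le)
  have h1 : volume.real (Ioo 0 y) ≤ height D e x z := measureReal_mono hsub (section_finite D e _ _)
  simp [hy.1.le] at h1
  linarith

omit hD in
/-- Coordinates in the order `(e 1, (e 0, e 2))` preserve volume. -/
theorem measurePreserving_coord :
    MeasurePreserving (fun X : R3 => (X (e 1), (X (e 0), X (e 2)))) volume volume := by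
  have h1 := volume_measurePreserving_piCongrLeft (fun _ : Fin 3 => ℝ)
    ((Equiv.swap (0 : Fin 3) 1).trans e).symm
  have h2 := volume_preserving_piFinSuccAbove (fun _ : Fin 3 => ℝ) 0
  have h3 := volume_preserving_piFinTwo (fun _ : Fin 2 => ℝ)
  have h4 := ((MeasurePreserving.id (volume : Measure ℝ)).prod h3).comp (h2.comp h1)
  have heq : (fun X : R3 => (X (e 1), (X (e 0), X (e 2)))) =
      Prod.map id ⇑(MeasurableEquiv.piFinTwo fun _ => ℝ) ∘
        ⇑(MeasurableEquiv.piFinSuccAbove (fun _ : Fin 3 => ℝ) 0) ∘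
          ⇑(MeasurableEquiv.piCongrLeft (fun _ : Fin 3 => ℝ)
            ((Equiv.swap (0 : Fin 3) 1).trans e).symm) := by
    funext X
    have hc : ∀ l, MeasurableEquiv.piCongrLeft (fun _ : Fin 3 => ℝ)
        (e.symm.trans (Equiv.swap (0 : Fin 3) 1)) X l = X (e (Equiv.swap 0 1 l)) := fun l => by
      simp [MeasurableEquiv.coe_piCongrLeft, Equiv.piCongrLeft_apply_eq_cast]
    simp [MeasurableEquiv.piFinSuccAbove, Fin.tail, hc, Equiv.swap_apply_def]
  rw [heq]
  exact h4

/-- Integral of a separated function over the reduced set, through its height function. -/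
theorem integral_sep {g1 g2 g3 : ℝ → ℝ} (h1c : Continuous g1) (h2c : Continuous g2)
    (h3c : Continuous g3) (h1 : ∀ x, x ∉ Ioo (0 : ℝ) 1 → g1 x = 0)
    (h2 : ∀ x, x ∉ Ioo (0 : ℝ) 1 → g2 x = 0) (h3 : ∀ x, x ∉ Ioo (0 : ℝ) 1 → g3 x = 0) :
    ∫ X in D, g1 (X (e 0)) * g2 (X (e 1)) * g3 (X (e 2)) =
      ∫ z, g2 z * ∫ x, g1 x * ∫ y in (0 : ℝ)..height D e x z, g3 y := by
  have hint : ∀ g : ℝ → ℝ, Continuous g → (∀ x, x ∉ Ioo (0 : ℝ) 1 → g x = 0) → Integrable g :=
    fun g hg hg0 => hg.integrable_of_hasCompactSupport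
      (HasCompactSupport.intro (isCompact_Icc (a := (0 : ℝ)) (b := 1))
        (fun x hx => hg0 x (fun h => hx (Ioo_subset_Icc_self h))))
  set Φ : ℝ × ℝ × ℝ → ℝ := fun q => g2 q.1 * (g1 q.2.1 * g3 q.2.2) *
    D.indicator 1 (pt e q.2.1 q.1 q.2.2) with hΦ
  have hmpt : Measurable fun q : ℝ × ℝ × ℝ => pt e q.2.1 q.1 q.2.2 :=
    (measurable_pt e).comp (g := fun p : (ℝ × ℝ) × ℝ => pt e p.1.1 p.1.2 p.2)
      (f := fun q : ℝ × ℝ × ℝ => ((q.2.1, q.1), q.2.2)) (by fun_prop)
  have hΦi : Integrable Φ := by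
    refine integrable_mul_bdd ((hint g2 h2c h2).mul_prod ((hint g1 h1c h1).mul_prod (hint g3 h3c h3)))
      ((measurable_const.indicator hD.measurable).comp hmpt).aestronglyMeasurable (C := 1) ?_
    intro q
    by_cases hq : pt e q.2.1 q.1 q.2.2 ∈ D <;> simp [hq]
  have hstart : ∫ X in D, g1 (X (e 0)) * g2 (X (e 1)) * g3 (X (e 2)) = ∫ q, Φ q := by
    rw [← (measurePreserving_coord e).map_eq, integral_map
      (measurePreserving_coord e).measurable.aemeasurable
      (by rw [(measurePreserving_coord e).map_eq]; exact hΦi.aestronglyMeasurable),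
      ← integral_indicator hD.measurable]
    refine integral_congr_ae (Eventually.of_forall fun X => ?_)
    simp only [hΦ, pt_apply]
    by_cases hX : X ∈ D <;> simp [hX]
    ring
  rw [hstart, Measure.volume_eq_prod, integral_prod _ (by rwa [← Measure.volume_eq_prod])]
  refine integral_congr_ae ?_
  have hslice : ∀ᵐ z ∂(volume : Measure ℝ), Integrable fun q : ℝ × ℝ => Φ (z, q) := by
    rw [Measure.volume_eq_prod] at hΦi
    exact hΦi.prod_right_ae
  filter_upwards [hslice] with z hz
  rw [Measure.volume_eq_prod, integral_prod _ (by rwa [← Measure.volume_eq_prod]),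
    ← integral_const_mul]
  refine integral_congr_ae (Eventually.of_forall fun x => ?_)
  simp only
  by_cases hxz : z ∈ Ioo (0 : ℝ) 1 ∧ x ∈ Ioo (0 : ℝ) 1
  swap
  · rw [not_and_or] at hxz
    rcases hxz with hzn | hxn
    · simp [hΦ, h2 z hzn]
    · simp [hΦ, h1 x hxn]
  obtain ⟨hz', hx'⟩ := hxz
  obtain ⟨hF0, hF1⟩ := height_mem (D := D) e x z
  have key : (fun y => Φ (z, x, y)) =ᵐ[volume]
      fun y => (Ioc 0 (height D e x z)).indicator (fun y => g2 z * (g1 x * g3 y)) y := by
    filter_upwards [Measure.ae_ne volume (height D e x z)] with y hy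
    by_cases hy01 : y ∈ Ioo (0 : ℝ) 1
    · rcases lt_or_gt_of_ne hy with hlt | hgt
      · simp [hΦ, mem_of_lt_height hD e hx' hz' hy01 hlt, hy01.1, hlt.le]
      · simp [hΦ, notMem_of_height_lt hD e hx' hz' hy01 hgt, not_le.2 hgt]
    · simp [hΦ, h3 y hy01, indicator]
  rw [integral_congr_ae key, integral_indicator measurableSet_Ioc,
    intervalIntegral.integral_of_le hF0]
  simp only [integral_const_mul]

omit hD e in
theorem hasFDerivAt_coord {g : ℝ → ℝ} {d : ℝ} {X : R3} {i : Fin 3}
    (hg : HasDerivAt g d (X i)) :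
    HasFDerivAt (fun Y : R3 => g (Y i)) (d • ContinuousLinearMap.proj (R := ℝ) i) X :=
  hg.comp_hasFDerivAt X (hasFDerivAt_apply (𝕜 := ℝ) i X)

omit hD in
theorem hasFDerivAt_sep {g1 g2 g3 d1 d2 d3 : ℝ → ℝ} (h1 : ∀ t, HasDerivAt g1 (d1 t) t)
    (h2 : ∀ t, HasDerivAt g2 (d2 t) t) (h3 : ∀ t, HasDerivAt g3 (d3 t) t) (X : R3) :
    ∃ T : R3 →L[ℝ] ℝ, HasFDerivAt (fun Y : R3 => g1 (Y (e 0)) * g2 (Y (e 1)) * g3 (Y (e 2))) T X ∧
      T (unit (e 0)) = d1 (X (e 0)) * g2 (X (e 1)) * g3 (X (e 2)) ∧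
      T (unit (e 1)) = g1 (X (e 0)) * d2 (X (e 1)) * g3 (X (e 2)) ∧
      T (unit (e 2)) = g1 (X (e 0)) * g2 (X (e 1)) * d3 (X (e 2)) := by
  refine ⟨_, ((hasFDerivAt_coord (h1 _)).mul (hasFDerivAt_coord (h2 _))).mul
    (hasFDerivAt_coord (h3 _)), ?_, ?_, ?_⟩
  all_goals simp [unit, e.injective.eq_iff]
  all_goals ring

omit hD in
/-- Derivative of the cut-off `tot`. -/
theorem hasDerivAt_tot (n : ℕ) (x : ℝ) : HasDerivAt (tot n)
    (ker (node n 0) (hh n) x - ker (node n (n + 1)) (hh n) x) x := by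
  have : tot n = fun x => st (node n 0) (hh n) x - st (node n (n + 1)) (hh n) x :=
    funext (tot_eq n)
  rw [this]
  exact (hasDerivAt_st _ _ x).sub (hasDerivAt_st _ _ x)

omit hD in
theorem ker_node_eq_zero (n : ℕ) {k : ℕ} (hk : k ≤ n + 1) {x : ℝ} (hx : x ∉ Ioo (0 : ℝ) 1) :
    ker (node n k) (hh n) x = 0 := by
  refine ker_eq_zero (hh_pos n) (fun h => hx ⟨?_, ?_⟩)
  · linarith [h.1, node_pos n k]
  · linarith [h.2, node_le_of_le n hk, hh_pos n]

omit hD in
theorem intervalIntegral_tot_deriv (m : ℕ) (t : ℝ) :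
    ∫ y in (0 : ℝ)..t, (ker (node m 0) (hh m) y - ker (node m (m + 1)) (hh m) y) = tot m t := by
  rw [intervalIntegral.integral_eq_sub_of_hasDerivAt (fun y _ => hasDerivAt_tot m y)
    (((continuous_ker _ _).sub (continuous_ker _ _)).intervalIntegrable _ _),
    tot_eq_zero m (show (0 : ℝ) ∉ Ioo (0 : ℝ) 1 by simp), sub_zero]

omit hD in
theorem tendsto_tot (t : ℝ) : Tendsto (fun m => tot m t) atTop (𝓝 (inI t)) := by
  by_cases ht : 0 < t ∧ t < 1
  · rw [inI, if_pos ht]
    refine tendsto_const_nhds.congr' ?_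
    have h := (tendsto_hh.const_mul 2)
    rw [mul_zero] at h
    filter_upwards [h.eventually (eventually_le_nhds ht.1),
      h.eventually (eventually_le_nhds (by linarith : (0 : ℝ) < 1 - t))] with m h1 h2
    exact (tot_eq_one m ⟨h1, by linarith⟩).symm
  · rw [inI, if_neg ht]
    refine tendsto_const_nhds.congr' (Eventually.of_forall fun m => ?_)
    exact (tot_eq_zero m ht).symm

omit hD in
theorem tendsto_int_tot {t : ℝ} (ht : t ∈ Icc (0 : ℝ) 1) :
    Tendsto (fun m => ∫ y in (0 : ℝ)..t, tot m y) atTop (𝓝 t) := by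
  have := intervalIntegral.tendsto_integral_filter_of_dominated_convergence
    (μ := volume) (a := 0) (b := t) (F := fun m y => tot m y) (f := inI) (fun _ => 1)
    (l := atTop) (Eventually.of_forall fun m => (continuous_tot m).aestronglyMeasurable)
    (Eventually.of_forall fun m => Eventually.of_forall fun y _ => by
      rw [Real.norm_eq_abs, abs_of_nonneg (tot_nonneg m y)]; exact tot_le_one m y)
    intervalIntegrable_const (Eventually.of_forall fun y _ => tendsto_tot y)
  convert this using 2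
  rw [intervalIntegral.integral_congr_ae (g := fun _ => (1 : ℝ)) ?_]
  · simp
  · filter_upwards [Measure.ae_ne volume (1 : ℝ)] with y hy hyI
    rw [uIoc_of_le ht.1] at hyI
    rw [inI, if_pos ⟨hyI.1, lt_of_le_of_ne (hyI.2.trans ht.2) hy⟩]

omit hD in
/-- Limits pass through iterated separated integrals. -/
theorem tendsto_sep {g1 g2 : ℝ → ℝ} (hi1 : Integrable g1) (hi2 : Integrable g2)
    {φ : ℕ → ℝ → ℝ} {ψ : ℝ → ℝ} (hm : ∀ m, Measurable (φ m))
    (hb : ∀ m, ∀ t ∈ Icc (0 : ℝ) 1, |φ m t| ≤ 1)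
    (hlim : ∀ t ∈ Icc (0 : ℝ) 1, Tendsto (fun m => φ m t) atTop (𝓝 (ψ t)))
    {F : ℝ → ℝ → ℝ} (hF : Measurable fun p : ℝ × ℝ => F p.1 p.2)
    (hF01 : ∀ x z, F x z ∈ Icc (0 : ℝ) 1) :
    Tendsto (fun m => ∫ z, g2 z * ∫ x, g1 x * φ m (F x z)) atTop
      (𝓝 (∫ z, g2 z * ∫ x, g1 x * ψ (F x z))) := by
  have hmz : ∀ z, Measurable fun x => F x z := fun z => hF.comp (measurable_id.prodMk measurable_const)
  have hbd : ∀ m z, |∫ x, g1 x * φ m (F x z)| ≤ ∫ x, |g1 x| := by
    intro m z
    refine (abs_integral_le_integral_abs).trans (integral_mono_of_nonneg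
      (Eventually.of_forall fun x => abs_nonneg _) hi1.abs (Eventually.of_forall fun x => ?_))
    simp only [abs_mul]
    exact mul_le_of_le_one_right (abs_nonneg _) (hb m _ (hF01 x z))
  refine tendsto_integral_of_dominated_convergence (fun z => |g2 z| * ∫ x, |g1 x|)
    (fun m => ?_) (hi2.abs.mul_const _) (fun m => Eventually.of_forall fun z => ?_)
    (Eventually.of_forall fun z => Tendsto.const_mul _ ?_)
  · refine hi2.aestronglyMeasurable.mul (AEStronglyMeasurable.integral_prod_right'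
      (f := fun p : ℝ × ℝ => g1 p.2 * φ m (F p.2 p.1)) ?_)
    exact (hi1.aestronglyMeasurable.comp_snd).mul
      ((hm m).comp (hF.comp measurable_swap)).aestronglyMeasurable
  · rw [Real.norm_eq_abs, abs_mul]
    exact mul_le_mul_of_nonneg_left (hbd m z) (abs_nonneg _)
  · refine tendsto_integral_of_dominated_convergence (fun x => |g1 x|)
      (fun m => hi1.aestronglyMeasurable.mul ((hm m).comp (hmz z)).aestronglyMeasurable)
      hi1.abs (fun m => Eventually.of_forall fun x => ?_)
      (Eventually.of_forall fun x => Tendsto.const_mul _ (hlim _ (hF01 x z)))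
    rw [Real.norm_eq_abs, abs_mul]
    exact mul_le_of_le_one_right (abs_nonneg _) (hb m _ (hF01 x z))

/-- **Box inequality.** -/
theorem box_le (n N : ℕ) (al be de : ℕ → ℕ → ℝ)
    (hv : ∀ j k, al j k ^ 2 + be j k ^ 2 + de j k ^ 2 ≤ 1) :
    ∑ j ∈ Finset.range (N + 1), ∑ k ∈ Finset.range (n + 1),
      (al j k * (∫ z, pu N j z *
          ∫ x, (ker (node n k) (hh n) x - ker (node n (k + 1)) (hh n) x) * height D e x z)
        + de j k * (∫ z, (ker (node N j) (hh N) z - ker (node N (j + 1)) (hh N) z) *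
          ∫ x, pu n k x * height D e x z)
        + be j k * (∫ z, pu N j z * ∫ x, pu n k x * inI (height D e x z))) ≤ M := by
  set K : ℕ → ℕ → ℝ → ℝ := fun n k x => ker (node n k) (hh n) x - ker (node n (k + 1)) (hh n) x
    with hK
  set K0 : ℕ → ℝ → ℝ := fun m x => ker (node m 0) (hh m) x - ker (node m (m + 1)) (hh m) x with hK0
  have hKd : ∀ n k x, HasDerivAt (pu n k) (K n k x) x := fun n k x => by
    have := hasDerivAt_bump (node n k) (hh n) x
    rwa [← node_succ] at this
  have hKc : ∀ n k, Continuous (K n k) := fun n k => (continuous_ker _ _).sub (continuous_ker _ _)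
  have hK0c : ∀ m, Continuous (K0 m) := fun m => (continuous_ker _ _).sub (continuous_ker _ _)
  have hKz : ∀ n k, k ≤ n → ∀ x, x ∉ Ioo (0 : ℝ) 1 → K n k x = 0 := fun n k hk x hx => by
    simp [hK, ker_node_eq_zero n (k := k) (by omega) hx, ker_node_eq_zero n (k := k + 1) (by omega) hx]
  have hK0z : ∀ m, ∀ x, x ∉ Ioo (0 : ℝ) 1 → K0 m x = 0 := fun m x hx => by
    simp [hK0, ker_node_eq_zero m (k := 0) (by omega) hx, ker_node_eq_zero m (k := m + 1) le_rfl hx]
  have hpz : ∀ n k, k ≤ n → ∀ x, x ∉ Ioo (0 : ℝ) 1 → pu n k x = 0 := fun n k hk x hx => by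
    by_contra hne
    exact hx (pu_supp_subset n hk (Ioo_subset_Icc_self (pu_support n k hne)))
  have hkk : ∀ {n k : ℕ}, k ∈ Finset.range (n + 1) → k ≤ n := fun h => by
    have := Finset.mem_range.1 h; omega
  -- the inequality for a fixed cut-off in the height variable
  have hstep : ∀ m : ℕ, ∑ j ∈ Finset.range (N + 1), ∑ k ∈ Finset.range (n + 1),
      (al j k * (∫ z, pu N j z * ∫ x, K n k x * ∫ y in (0 : ℝ)..height D e x z, tot m y)
        + de j k * (∫ z, K N j z * ∫ x, pu n k x * ∫ y in (0 : ℝ)..height D e x z, tot m y)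
        + be j k * (∫ z, pu N j z * ∫ x, pu n k x * tot m (height D e x z))) ≤ M := by
    intro m
    set v : ℕ → ℕ → Fin 3 → ℝ := fun j k => ![al j k, de j k, be j k] with hv'
    set W : ℕ → ℕ → R3 → ℝ := fun j k X => pu n k (X (e 0)) * pu N j (X (e 1)) * tot m (X (e 2))
      with hW
    set Xf : Fin 3 → R3 → ℝ := fun i X => ∑ j ∈ Finset.range (N + 1), ∑ k ∈ Finset.range (n + 1),
      v j k (e.symm i) * W j k X with hXf
    have hWnn : ∀ j k X, 0 ≤ W j k X := fun j k X =>
      mul_nonneg (mul_nonneg (pu_nonneg _ _ _) (pu_nonneg _ _ _)) (tot_nonneg _ _)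
    have hWsum : ∀ X, ∑ j ∈ Finset.range (N + 1), ∑ k ∈ Finset.range (n + 1), W j k X ≤ 1 := by
      intro X
      have : ∑ j ∈ Finset.range (N + 1), ∑ k ∈ Finset.range (n + 1), W j k X =
          tot n (X (e 0)) * tot N (X (e 1)) * tot m (X (e 2)) := by
        simp only [hW]
        rw [Finset.sum_comm]
        simp only [← Finset.sum_mul, ← Finset.mul_sum]
        rfl
      rw [this]
      exact mul_le_one₀ (mul_le_one₀ (tot_le_one _ _) (tot_nonneg _ _) (tot_le_one _ _))
        (tot_nonneg _ _) (tot_le_one _ _)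
    have hWd : ∀ j k, ContDiff ℝ 1 (W j k) := by
      intro j k
      have hp : ∀ n k, ContDiff ℝ 1 (pu n k) := fun n k => (contDiff_bump _ _).of_le (by simp)
      have ht : ContDiff ℝ 1 (tot m) := ContDiff.sum fun k _ => hp m k
      exact (((hp n k).comp (contDiff_apply ℝ ℝ (e 0))).mul
        ((hp N j).comp (contDiff_apply ℝ ℝ (e 1)))).mul (ht.comp (contDiff_apply ℝ ℝ (e 2)))
    have hsmooth : ∀ i, ContDiff ℝ 1 (Xf i) := fun i =>
      ContDiff.sum fun j _ => ContDiff.sum fun k _ => contDiff_const.mul (hWd j k)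
    have hbound : ∀ X ∈ box, ∑ i, Xf i X ^ 2 ≤ 1 := by
      intro X _
      simp only [hXf, ← Finset.sum_product' (Finset.range (N + 1)) (Finset.range (n + 1))]
      set s := Finset.range (N + 1) ×ˢ Finset.range (n + 1)
      calc ∑ i, (∑ p ∈ s, v p.1 p.2 (e.symm i) * W p.1 p.2 X) ^ 2
          ≤ ∑ i : Fin 3, ∑ p ∈ s, W p.1 p.2 X * v p.1 p.2 (e.symm i) ^ 2 := by
            refine Finset.sum_le_sum fun i _ => ?_
            have hcs := Finset.sum_sq_le_sum_mul_sum_of_sq_le_mul s
              (r := fun p => v p.1 p.2 (e.symm i) * W p.1 p.2 X)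
              (f := fun p => W p.1 p.2 X) (g := fun p => W p.1 p.2 X * v p.1 p.2 (e.symm i) ^ 2)
              (fun p _ => hWnn _ _ _) (fun p _ => mul_nonneg (hWnn _ _ _) (sq_nonneg _))
              (fun p _ => le_of_eq (by ring))
            refine hcs.trans (mul_le_of_le_one_left (Finset.sum_nonneg fun p _ =>
              mul_nonneg (hWnn _ _ _) (sq_nonneg _)) ?_)
            rw [Finset.sum_product]; exact hWsum X
        _ = ∑ p ∈ s, W p.1 p.2 X * ∑ i : Fin 3, v p.1 p.2 i ^ 2 := by
            rw [Finset.sum_comm]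
            refine Finset.sum_congr rfl fun p _ => ?_
            rw [← Finset.mul_sum, Equiv.sum_comp e.symm (fun i => v p.1 p.2 i ^ 2)]
        _ ≤ ∑ p ∈ s, W p.1 p.2 X * 1 := by
            refine Finset.sum_le_sum fun p _ => mul_le_mul_of_nonneg_left ?_ (hWnn _ _ _)
            simp only [hv', Fin.sum_univ_three]
            simpa using (show al p.1 p.2 ^ 2 + de p.1 p.2 ^ 2 + be p.1 p.2 ^ 2 ≤ 1 by
              linarith [hv p.1 p.2])
        _ ≤ 1 := by simp only [mul_one]; rw [Finset.sum_product]; exact hWsum X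
    have hbnd := hD.bound Xf hsmooth hbound
    have hflux : flux D Xf = 0 := by
      refine Finset.sum_eq_zero fun i _ => ?_
      have hz : ∀ c, c ∉ Ioo (0 : ℝ) 1 → ∀ y, Xf i (facePoint i c y) = 0 := by
        intro c hc y
        have hci : facePoint i c y i = c := by simp [facePoint]
        refine Finset.sum_eq_zero fun j hj => Finset.sum_eq_zero fun k hk => ?_
        obtain ⟨l, rfl⟩ := e.surjective i
        refine mul_eq_zero_of_right _ ?_
        fin_cases l <;> simp only [Fin.zero_eta, Fin.mk_one, Fin.reduceFinMk] at hci <;>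
          simp only [hW, Fin.zero_eta, Fin.mk_one, Fin.reduceFinMk, hci]
        · simp [hpz n k (hkk hk) c hc]
        · simp [hpz N j (hkk hj) c hc]
        · simp [tot_eq_zero m hc]
      simp [hz 1 (by simp), hz 0 (by simp)]
    set dd : ℕ → ℕ → Fin 3 → R3 → ℝ := fun j k l X =>
      ![K n k (X (e 0)) * pu N j (X (e 1)) * tot m (X (e 2)),
        pu n k (X (e 0)) * K N j (X (e 1)) * tot m (X (e 2)),
        pu n k (X (e 0)) * pu N j (X (e 1)) * K0 m (X (e 2))] l with hdd
    have hdiv : ∀ X, divergence Xf X = ∑ j ∈ Finset.range (N + 1), ∑ k ∈ Finset.range (n + 1),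
        (al j k * dd j k 0 X + de j k * dd j k 1 X + be j k * dd j k 2 X) := by
      intro X
      choose T hT h0 h1 h2 using fun j k => hasFDerivAt_sep e (hKd n k) (hKd N j)
        (fun t => hasDerivAt_tot m t) X
      have hF : ∀ i, HasFDerivAt (Xf i) (∑ j ∈ Finset.range (N + 1), ∑ k ∈ Finset.range (n + 1),
          v j k (e.symm i) • T j k) X := fun i =>
        HasFDerivAt.fun_sum fun j _ => HasFDerivAt.fun_sum fun k _ => (hT j k).const_mul _
      simp only [divergence, pd, (hF _).fderiv, sum_apply, smul_apply, smul_eq_mul]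
      rw [← Equiv.sum_comp e, Fin.sum_univ_three, ← Finset.sum_add_distrib, ← Finset.sum_add_distrib]
      refine Finset.sum_congr rfl fun j _ => ?_
      rw [← Finset.sum_add_distrib, ← Finset.sum_add_distrib]
      refine Finset.sum_congr rfl fun k _ => ?_
      simp [hv', hdd, h0, h1, h2, hK0]
    have hddi : ∀ j k l, IntegrableOn (dd j k l) D := by
      intro j k l
      refine IntegrableOn.mono_set (ContinuousOn.integrableOn_compact isCompact_Icc ?_) hD.subset
      refine Continuous.continuousOn ?_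
      have := continuous_pu n k; have := continuous_pu N j; have := continuous_tot m
      have := hKc n k; have := hKc N j; have := hK0c m
      simp only [hdd]
      fin_cases l <;> simp <;> fun_prop
    have heq : ∫ X in D, divergence Xf X = ∑ j ∈ Finset.range (N + 1), ∑ k ∈ Finset.range (n + 1),
      (al j k * (∫ z, pu N j z * ∫ x, K n k x * ∫ y in (0 : ℝ)..height D e x z, tot m y)
        + de j k * (∫ z, K N j z * ∫ x, pu n k x * ∫ y in (0 : ℝ)..height D e x z, tot m y)
        + be j k * (∫ z, pu N j z * ∫ x, pu n k x * tot m (height D e x z))) := by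
      simp only [hdiv]
      have hterm : ∀ j k, Integrable (fun X => al j k * dd j k 0 X + de j k * dd j k 1 X +
          be j k * dd j k 2 X) (volume.restrict D) := fun j k =>
        (((hddi j k 0).const_mul _).add ((hddi j k 1).const_mul _)).add ((hddi j k 2).const_mul _)
      rw [integral_finsetSum _ fun j _ => integrable_finsetSum _ fun k _ => hterm j k]
      refine Finset.sum_congr rfl fun j hj => ?_
      rw [integral_finsetSum _ fun k _ => hterm j k]
      refine Finset.sum_congr rfl fun k hk => ?_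
      have i1 : Integrable (fun X => al j k * dd j k 0 X + de j k * dd j k 1 X)
          (volume.restrict D) := ((hddi j k 0).const_mul _).add ((hddi j k 1).const_mul _)
      rw [integral_add i1 ((hddi j k 2).integrable.const_mul _),
        integral_add ((hddi j k 0).integrable.const_mul _) ((hddi j k 1).integrable.const_mul _),
        integral_const_mul, integral_const_mul, integral_const_mul]
      have e0 : ∫ X in D, dd j k 0 X =
          ∫ z, pu N j z * ∫ x, K n k x * ∫ y in (0 : ℝ)..height D e x z, tot m y := by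
        simp only [hdd, Matrix.cons_val]
        exact integral_sep hD e (hKc n k) (continuous_pu N j) (continuous_tot m)
          (hKz n k (hkk hk)) (hpz N j (hkk hj)) (fun x hx => tot_eq_zero m hx)
      have e1 : ∫ X in D, dd j k 1 X =
          ∫ z, K N j z * ∫ x, pu n k x * ∫ y in (0 : ℝ)..height D e x z, tot m y := by
        simp only [hdd, Matrix.cons_val]
        exact integral_sep hD e (continuous_pu n k) (hKc N j) (continuous_tot m)
          (hpz n k (hkk hk)) (hKz N j (hkk hj)) (fun x hx => tot_eq_zero m hx)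
      have e2 : ∫ X in D, dd j k 2 X =
          ∫ z, pu N j z * ∫ x, pu n k x * tot m (height D e x z) := by
        simp only [hdd, Matrix.cons_val]
        rw [integral_sep hD e (continuous_pu n k) (continuous_pu N j) (hK0c m)
          (hpz n k (hkk hk)) (hpz N j (hkk hj)) (hK0z m)]
        simp only [hK0, intervalIntegral_tot_deriv]
      rw [e0, e1, e2]
    linarith [heq ▸ hbnd]
  -- let the cut-off tend to the full height
  refine le_of_tendsto (x := atTop) (tendsto_finsetSum _ fun j hj => tendsto_finsetSum _ fun k hk => ?_)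
    (Eventually.of_forall hstep)
  have hKi : ∀ n k, Integrable (K n k) := fun n k =>
    (integrable_ker (hh_pos n) _).sub (integrable_ker (hh_pos n) _)
  have hF := measurable_height hD e
  have hF01 := height_mem (D := D) e
  have hGm : ∀ m, Measurable fun t : ℝ => ∫ y in (0 : ℝ)..t, tot m y := fun m =>
    (intervalIntegral.continuous_primitive
      (fun a b => (continuous_tot m).intervalIntegrable a b) 0).measurable
  have hGb : ∀ m, ∀ t ∈ Icc (0 : ℝ) 1, |∫ y in (0 : ℝ)..t, tot m y| ≤ 1 := by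
    intro m t ht
    have h' := intervalIntegral.norm_integral_le_of_norm_le_const (a := 0) (b := t) (C := 1)
      (f := tot m) fun y _ => by
        rw [Real.norm_eq_abs, abs_of_nonneg (tot_nonneg m y)]; exact tot_le_one m y
    rw [Real.norm_eq_abs, sub_zero, one_mul, abs_of_nonneg ht.1] at h'
    exact h'.trans ht.2
  have hlimG : ∀ t ∈ Icc (0 : ℝ) 1,
      Tendsto (fun m => ∫ y in (0 : ℝ)..t, tot m y) atTop (𝓝 (id t)) := fun t ht => tendsto_int_tot ht
  refine ((Tendsto.const_mul _ (tendsto_sep (hKi n k) (integrable_pu N j) hGm hGb hlimG hF hF01)).add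
    (Tendsto.const_mul _ (tendsto_sep (integrable_pu n k) (hKi N j) hGm hGb hlimG hF hF01))).add
    (Tendsto.const_mul _ (tendsto_sep (integrable_pu n k) (integrable_pu N j)
      (fun m => (continuous_tot m).measurable) (fun m t _ => by
        rw [abs_of_nonneg (tot_nonneg m t)]; exact tot_le_one m t)
      (fun t _ => tendsto_tot t) hF hF01))

end

end Vale.Agent.P232.Slicing
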