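import Vale.Agent.P232.Planar
import Vale.Agent.P232.Slicing.Main

/-!
The slice length `len` dominates every planar flux, so every planar bound applies to it.
-/

open MeasureTheory Set Filter Topology

namespace Vale.Agent.P232.Slicing

variable {f : ℝ → ℝ}

theorem isHeight (hf : Antitone f) (hf01 : ∀ x, f x ∈ Icc (0 : ℝ) 1) : IsHeight f :=
  ⟨hf.antitoneOn _, fun x _ => hf01 x⟩

theorem tendsto_leftHeight (hf : Antitone f) (hf01 : ∀ x, f x ∈ Icc (0 : ℝ) 1) :
    Tendsto f (𝓝[>] 0) (𝓝 (leftHeight f)) := by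
  have hH := isHeight hf hf01
  refine tendsto_order.2 ⟨fun v hv => ?_, fun v hv => ?_⟩
  · obtain ⟨_, ⟨y, hy, rfl⟩, hvy⟩ :=
      exists_lt_of_lt_csSup ((nonempty_Ioo.2 zero_lt_one).image f) hv
    filter_upwards [Ioo_mem_nhdsGT hy.1] with x hx using hvy.trans_le (hf hx.2.le)
  · filter_upwards [Ioo_mem_nhdsGT (zero_lt_one' ℝ)] with x hx
      using (hH.le_leftHeight hx).trans_lt hv

theorem tendsto_rightHeight (hf : Antitone f) (hf01 : ∀ x, f x ∈ Icc (0 : ℝ) 1) :
    Tendsto f (𝓝[<] 1) (𝓝 (rightHeight f)) := by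
  have hH := isHeight hf hf01
  refine tendsto_order.2 ⟨fun v hv => ?_, fun v hv => ?_⟩
  · filter_upwards [Ioo_mem_nhdsLT (zero_lt_one' ℝ)] with x hx
      using hv.trans_le (hH.rightHeight_le hx)
  · obtain ⟨_, ⟨y, hy, rfl⟩, hvy⟩ :=
      exists_lt_of_csInf_lt ((nonempty_Ioo.2 zero_lt_one).image f) hv
    filter_upwards [Ioo_mem_nhdsLT hy.2] with x hx using (hf hx.1.le).trans_lt hvy

theorem integral_interior (hf : Antitone f) (hf01 : ∀ x, f x ∈ Icc (0 : ℝ) 1) {a : ℝ → ℝ}
    (ha : Continuous a) :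
    ∫ x in (0 : ℝ)..1, a x * inI (f x) = ∫ x in topWidth f..botWidth f, a x := by
  have hH := isHeight hf hf01
  have hw := (IsHeight.topWidth_mem (f := f))
  have hX := (IsHeight.botWidth_mem (f := f))
  have hle : topWidth f ≤ botWidth f := IsHeight.topWidth_le
  have key : ∀ᵐ x ∂(volume : Measure ℝ), x ∈ Ioc (0 : ℝ) 1 → a x * inI (f x) =
      (Ioc (topWidth f) (botWidth f)).indicator a x := by
    filter_upwards [Measure.ae_ne volume (topWidth f), Measure.ae_ne volume (botWidth f),
      Measure.ae_ne volume (1 : ℝ)] with x hxw hxX hx1 hx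
    have hx' : x ∈ Ioo (0 : ℝ) 1 := ⟨hx.1, lt_of_le_of_ne hx.2 hx1⟩
    rcases lt_or_gt_of_ne hxw with h | h
    · simp [inI, hH.eq_one hx'.1 h, h.not_gt]
    rcases lt_or_gt_of_ne hxX with h' | h'
    · have h0 : 0 < f x := by
        obtain ⟨y, hy, hxy⟩ := exists_lt_of_lt_csSup (insert_nonempty _ _) h'
        rcases hy with rfl | hy
        · exact absurd hxy hx'.1.not_gt
        · exact hy.2.trans_le (hf hxy.le)
      have h1 : f x < 1 := by
        refine lt_of_not_ge fun hge => ?_
        exact h.not_ge (le_csSup (IsHeight.bdd fun x => 1 ≤ f x) (mem_insert_of_mem _ ⟨hx', hge⟩))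
      simp [inI, h0, h1, h, h'.le]
    · simp [inI, hH.eq_zero h' hx'.2, h'.not_ge]
  rw [intervalIntegral.integral_of_le zero_le_one, intervalIntegral.integral_of_le hle,
    setIntegral_congr_ae measurableSet_Ioc key, setIntegral_indicator measurableSet_Ioc]
  rw [inter_eq_right.2 (Ioc_subset_Ioc hw.1 hX.2)]

/-- `len` bounds all planar fluxes. -/
theorem lenGe (hf : Antitone f) (hf01 : ∀ x, f x ∈ Icc (0 : ℝ) 1) : LenGe f (len f) := by
  intro a g b₀ ha hg hab
  have h := flux_le_len hf hf01 (b := fun x => b₀ + ∫ t in (0 : ℝ)..x, g t) ha hab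
    (hg.intervalIntegrable 0 1) (fun x _ => by simp) (tendsto_leftHeight hf hf01)
    (tendsto_rightHeight hf hf01)
  rw [fieldFlux, ← integral_interior hf hf01 ha]
  simp only [intervalIntegral.integral_same, add_zero] at h
  rw [show ∫ x in (0 : ℝ)..1, f x * g x = ∫ x in (0 : ℝ)..1, g x * f x from
    intervalIntegral.integral_congr fun x _ => mul_comm _ _]
  exact h

/-- The master inequality for a slice of a reduced set. -/
theorem master_slice {D : Set R3} {M : ℝ} (hD : IsReduced D M) (e : Equiv.Perm (Fin 3)) (z : ℝ) :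
    (isHeight (height_anti_fst hD e z) (slice_mem e z)).slice.Master
      (len fun x => height D e x z) :=
  (isHeight (height_anti_fst hD e z) (slice_mem e z)).master
    (lenGe (height_anti_fst hD e z) (slice_mem e z))

end Vale.Agent.P232.Slicing
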