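import Mathlib

/-!
Smooth partitions of unity on uniform grids, used for the slicing inequality of P232.
-/

open MeasureTheory Set Filter Topology
open scoped ContDiff

namespace Vale.Agent.P232.Slicing

/-- Smooth step from `0` (left of `a`) to `1` (right of `a + h`). -/
noncomputable def st (a h x : ℝ) : ℝ := Real.smoothTransition ((x - a) / h)

/-- The averaging kernel `st'` on `[a, a + h]`. -/
noncomputable def ker (a h x : ℝ) : ℝ := deriv (st a h) x

/-- Partition-of-unity bump supported in `[a, a + 2h]`. -/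
noncomputable def bump (a h x : ℝ) : ℝ := st a h x - st (a + h) h x

/-- Weighted average of `f` over `[a, a + h]`. -/
noncomputable def av (a h : ℝ) (f : ℝ → ℝ) : ℝ := ∫ x, ker a h x * f x

variable {a h x : ℝ}

theorem contDiff_st (a h : ℝ) : ContDiff ℝ ∞ (st a h) := by
  unfold st
  exact Real.smoothTransition.contDiff.comp (by fun_prop)

theorem continuous_st (a h : ℝ) : Continuous (st a h) := (contDiff_st a h).continuous

theorem st_nonneg (a h x : ℝ) : 0 ≤ st a h x := Real.smoothTransition.nonneg _

theorem st_le_one (a h x : ℝ) : st a h x ≤ 1 := Real.smoothTransition.le_one _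

theorem st_of_le (hh : 0 < h) (hx : x ≤ a) : st a h x = 0 :=
  Real.smoothTransition.zero_of_nonpos (div_nonpos_of_nonpos_of_nonneg (by linarith) hh.le)

theorem st_of_ge (hh : 0 < h) (hx : a + h ≤ x) : st a h x = 1 :=
  Real.smoothTransition.one_of_one_le ((one_le_div hh).2 (by linarith))

theorem monotone_st (hh : 0 < h) (a : ℝ) : Monotone (st a h) := fun x y hxy =>
  Real.smoothTransition.monotone (div_le_div_of_nonneg_right (by linarith) hh.le)

theorem hasDerivAt_st (a h x : ℝ) : HasDerivAt (st a h) (ker a h x) x :=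
  ((contDiff_st a h).differentiable (by norm_num)).differentiableAt.hasDerivAt

theorem continuous_ker (a h : ℝ) : Continuous (ker a h) :=
  (contDiff_st a h).continuous_deriv (by norm_num)

theorem ker_nonneg (hh : 0 < h) (a x : ℝ) : 0 ≤ ker a h x := (monotone_st hh a).deriv_nonneg

theorem ker_eq_zero (hh : 0 < h) (hx : x ∉ Icc a (a + h)) : ker a h x = 0 := by
  simp only [mem_Icc, not_and_or, not_le] at hx
  rcases hx with hx | hx
  · have : st a h =ᶠ[𝓝 x] fun _ => (0 : ℝ) := by
      filter_upwards [eventually_lt_nhds hx] with y hy using st_of_le hh hy.le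
    simp [ker, this.deriv_eq]
  · have : st a h =ᶠ[𝓝 x] fun _ => (1 : ℝ) := by
      filter_upwards [eventually_gt_nhds hx] with y hy using st_of_ge hh hy.le
    simp [ker, this.deriv_eq]

theorem hasCompactSupport_ker (hh : 0 < h) (a : ℝ) : HasCompactSupport (ker a h) :=
  HasCompactSupport.intro isCompact_Icc (fun _ hx => ker_eq_zero hh hx)

theorem integrable_ker (hh : 0 < h) (a : ℝ) : Integrable (ker a h) :=
  (continuous_ker a h).integrable_of_hasCompactSupport (hasCompactSupport_ker hh a)

theorem integral_ker (hh : 0 < h) (a : ℝ) : ∫ x, ker a h x = 1 := by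
  rw [← setIntegral_eq_integral_of_forall_compl_eq_zero (s := Icc a (a + h))
    (fun x hx => ker_eq_zero hh hx), integral_Icc_eq_integral_Ioc,
    ← intervalIntegral.integral_of_le (by linarith),
    intervalIntegral.integral_eq_sub_of_hasDerivAt (fun x _ => hasDerivAt_st a h x)
      ((continuous_ker a h).intervalIntegrable _ _),
    st_of_le hh le_rfl, st_of_ge hh le_rfl, sub_zero]

/-- Integrability of the product of an integrable function and a bounded one. -/
theorem integrable_mul_bdd {α : Type*} [MeasurableSpace α] {μ : Measure α} {g f : α → ℝ}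
    (hg : Integrable g μ) (hf : AEStronglyMeasurable f μ) {C : ℝ} (hC : ∀ x, |f x| ≤ C) :
    Integrable (fun x => g x * f x) μ :=
  hg.mul_bdd (c := C) hf (Eventually.of_forall fun x => by simpa [Real.norm_eq_abs] using hC x)

theorem integrable_ker_mul (hh : 0 < h) (a : ℝ) {f : ℝ → ℝ} (hf : Measurable f) {C : ℝ}
    (hC : ∀ x, |f x| ≤ C) : Integrable (fun x => ker a h x * f x) :=
  integrable_mul_bdd (integrable_ker hh a) hf.aestronglyMeasurable hC

theorem le_av (hh : 0 < h) {f : ℝ → ℝ} (hf : Measurable f) {C : ℝ} (hC : ∀ x, |f x| ≤ C)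
    {m : ℝ} (hm : ∀ x ∈ Icc a (a + h), m ≤ f x) : m ≤ av a h f := by
  have h1 : ∫ x, ker a h x * m ≤ ∫ x, ker a h x * f x := by
    refine integral_mono ((integrable_ker hh a).mul_const m) (integrable_ker_mul hh a hf hC)
      (fun x => ?_)
    by_cases hx : x ∈ Icc a (a + h)
    · exact mul_le_mul_of_nonneg_left (hm x hx) (ker_nonneg hh a x)
    · simp [ker_eq_zero hh hx]
  rw [integral_mul_const, integral_ker hh a, one_mul] at h1
  exact h1

theorem av_le (hh : 0 < h) {f : ℝ → ℝ} (hf : Measurable f) {C : ℝ} (hC : ∀ x, |f x| ≤ C)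
    {M : ℝ} (hM : ∀ x ∈ Icc a (a + h), f x ≤ M) : av a h f ≤ M := by
  have h1 : ∫ x, ker a h x * f x ≤ ∫ x, ker a h x * M := by
    refine integral_mono (integrable_ker_mul hh a hf hC) ((integrable_ker hh a).mul_const M)
      (fun x => ?_)
    by_cases hx : x ∈ Icc a (a + h)
    · exact mul_le_mul_of_nonneg_left (hM x hx) (ker_nonneg hh a x)
    · simp [ker_eq_zero hh hx]
  rw [integral_mul_const, integral_ker hh a, one_mul] at h1
  exact h1

theorem av_mono (hh : 0 < h) (a : ℝ) {f g : ℝ → ℝ} (hf : Measurable f) (hg : Measurable g)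
    {C : ℝ} (hC : ∀ x, |f x| ≤ C) (hD : ∀ x, |g x| ≤ C) (hle : ∀ x, f x ≤ g x) :
    av a h f ≤ av a h g :=
  integral_mono (integrable_ker_mul hh a hf hC) (integrable_ker_mul hh a hg hD)
    (fun x => mul_le_mul_of_nonneg_left (hle x) (ker_nonneg hh a x))

theorem av_antitone_mem (hh : 0 < h) {f : ℝ → ℝ} (hf : Antitone f) {C : ℝ}
    (hC : ∀ x, |f x| ≤ C) (a : ℝ) : av a h f ∈ Icc (f (a + h)) (f a) :=
  ⟨le_av hh hf.measurable hC (fun _ hx => hf hx.2), av_le hh hf.measurable hC (fun _ hx => hf hx.1)⟩

theorem av_shift_le (hh : 0 < h) {f : ℝ → ℝ} (hf : Antitone f) {C : ℝ}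
    (hC : ∀ x, |f x| ≤ C) (a : ℝ) : av (a + h) h f ≤ av a h f :=
  le_trans (av_antitone_mem hh hf hC (a + h)).2 (av_antitone_mem hh hf hC a).1

theorem contDiff_bump (a h : ℝ) : ContDiff ℝ ∞ (bump a h) :=
  (contDiff_st a h).sub (contDiff_st (a + h) h)

theorem continuous_bump (a h : ℝ) : Continuous (bump a h) := (contDiff_bump a h).continuous

theorem hasDerivAt_bump (a h x : ℝ) :
    HasDerivAt (bump a h) (ker a h x - ker (a + h) h x) x :=
  (hasDerivAt_st a h x).sub (hasDerivAt_st (a + h) h x)

theorem bump_nonneg (hh : 0 < h) (a x : ℝ) : 0 ≤ bump a h x := by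
  have : st (a + h) h x ≤ st a h x := by
    unfold st
    exact Real.smoothTransition.monotone (div_le_div_of_nonneg_right (by linarith) hh.le)
  simp only [bump]; linarith

theorem bump_le_one (a h x : ℝ) : bump a h x ≤ 1 := by
  have := st_le_one a h x
  have := st_nonneg (a + h) h x
  simp only [bump]; linarith

theorem bump_eq_zero (hh : 0 < h) (hx : x ∉ Ioo a (a + 2 * h)) : bump a h x = 0 := by
  simp only [mem_Ioo, not_and_or, not_lt] at hx
  rcases hx with hx | hx
  · simp [bump, st_of_le hh hx, st_of_le hh (hx.trans (by linarith : a ≤ a + h))]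
  · simp [bump, st_of_ge hh ((by linarith : a + h ≤ a + 2 * h).trans hx),
      st_of_ge hh ((by linarith : a + h + h ≤ a + 2 * h).trans hx)]

theorem tsupport_bump (hh : 0 < h) (a : ℝ) : tsupport (bump a h) ⊆ Icc a (a + 2 * h) := by
  refine closure_minimal (fun x hx => ?_) isClosed_Icc
  by_contra hn
  exact hx (bump_eq_zero hh (fun h' => hn (Ioo_subset_Icc_self h')))

theorem hasCompactSupport_bump (hh : 0 < h) (a : ℝ) : HasCompactSupport (bump a h) :=
  HasCompactSupport.intro isCompact_Icc
    (fun _ hx => bump_eq_zero hh (fun h' => hx (Ioo_subset_Icc_self h')))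

theorem integrable_bump (hh : 0 < h) (a : ℝ) : Integrable (bump a h) :=
  (continuous_bump a h).integrable_of_hasCompactSupport (hasCompactSupport_bump hh a)

theorem integral_bump (hh : 0 < h) (a : ℝ) : ∫ x, bump a h x = h := by
  have ha : a ≤ a + 2 * h := by linarith
  rw [← setIntegral_eq_integral_of_forall_compl_eq_zero (s := Icc a (a + 2 * h))
    (fun x hx => bump_eq_zero hh (fun h' => hx (Ioo_subset_Icc_self h'))),
    integral_Icc_eq_integral_Ioc, ← intervalIntegral.integral_of_le ha]
  simp only [bump]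
  rw [intervalIntegral.integral_sub ((continuous_st a h).intervalIntegrable _ _)
    ((continuous_st _ h).intervalIntegrable _ _)]
  have hshift : ∀ y, st (a + h) h y = st a h (y - h) := by
    intro y; simp only [st]; ring_nf
  simp only [hshift]
  rw [intervalIntegral.integral_comp_sub_right (fun y => st a h y)]
  have i : ∀ u v, IntervalIntegrable (st a h) volume u v :=
    fun u v => (continuous_st a h).intervalIntegrable _ _
  have e1 : ∫ y in (a - h)..a, st a h y = 0 := by
    rw [intervalIntegral.integral_congr (g := fun _ => (0 : ℝ))]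
    · simp
    · intro y hy
      rw [uIcc_of_le (by linarith)] at hy
      exact st_of_le hh hy.2
  have e2 : ∫ y in (a + h)..(a + 2 * h), st a h y = h := by
    rw [intervalIntegral.integral_congr (g := fun _ => (1 : ℝ))]
    · simp; ring
    · intro y hy
      rw [uIcc_of_le (by linarith)] at hy
      exact st_of_ge hh hy.1
  rw [← intervalIntegral.integral_add_adjacent_intervals (i a (a + h)) (i (a + h) (a + 2 * h)),
    show a + 2 * h - h = a + h by ring,
    ← intervalIntegral.integral_add_adjacent_intervals (i (a - h) a) (i a (a + h)), e1, e2]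
  ring

/-- Grid width. -/
noncomputable def hh (n : ℕ) : ℝ := 1 / ((n : ℝ) + 4)

/-- Grid node. -/
noncomputable def node (n k : ℕ) : ℝ := ((k : ℝ) + 1) * hh n

/-- The `k`-th bump of the `n`-th grid; its support lies in the open unit interval for `k ≤ n`. -/
noncomputable def pu (n k : ℕ) (x : ℝ) : ℝ := bump (node n k) (hh n) x

/-- Sum of the bumps of the `n`-th grid. -/
noncomputable def tot (n : ℕ) (x : ℝ) : ℝ := ∑ k ∈ Finset.range (n + 1), pu n k x

theorem hh_pos (n : ℕ) : 0 < hh n := by unfold hh; positivity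

theorem hh_le (n : ℕ) : hh n ≤ 1 / 4 := by
  unfold hh
  exact one_div_le_one_div_of_le (by norm_num) (le_add_of_nonneg_left (Nat.cast_nonneg n))

theorem hh_mul (n : ℕ) : ((n : ℝ) + 4) * hh n = 1 := by
  unfold hh; field_simp

theorem tendsto_hh : Tendsto hh atTop (𝓝 0) :=
  (tendsto_natCast_atTop_atTop.atTop_add tendsto_const_nhds).const_div_atTop 1

theorem node_succ (n k : ℕ) : node n (k + 1) = node n k + hh n := by
  simp only [node]; push_cast; ring

theorem node_pos (n k : ℕ) : 0 < node n k := by
  have := hh_pos n; unfold node; positivity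

theorem node_last (n : ℕ) : node n (n + 1) = 1 - 2 * hh n := by
  have := hh_mul n; simp only [node]; push_cast; linarith

theorem node_le_of_le (n : ℕ) {k : ℕ} (hk : k ≤ n + 1) : node n k ≤ 1 - 2 * hh n := by
  rw [← node_last n]
  have : (k : ℝ) ≤ ((n + 1 : ℕ) : ℝ) := Nat.cast_le.2 hk
  exact mul_le_mul_of_nonneg_right (by linarith) (hh_pos n).le

theorem node_zero (n : ℕ) : node n 0 = hh n := by simp [node]

theorem pu_nonneg (n k : ℕ) (x : ℝ) : 0 ≤ pu n k x := bump_nonneg (hh_pos n) _ x

theorem pu_mul_eq (n k : ℕ) (x : ℝ) :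
    pu n k x = st (node n k) (hh n) x - st (node n (k + 1)) (hh n) x := by
  rw [node_succ]; rfl

theorem tot_eq (n : ℕ) (x : ℝ) :
    tot n x = st (node n 0) (hh n) x - st (node n (n + 1)) (hh n) x := by
  simp only [tot, pu_mul_eq]
  exact Finset.sum_range_sub' (fun k => st (node n k) (hh n) x) (n + 1)

theorem tot_nonneg (n : ℕ) (x : ℝ) : 0 ≤ tot n x :=
  Finset.sum_nonneg (fun k _ => pu_nonneg n k x)

theorem tot_le_one (n : ℕ) (x : ℝ) : tot n x ≤ 1 := by
  rw [tot_eq]
  have := st_le_one (node n 0) (hh n) x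
  have := st_nonneg (node n (n + 1)) (hh n) x
  linarith

theorem tot_eq_one (n : ℕ) (hx : x ∈ Icc (2 * hh n) (1 - 2 * hh n)) : tot n x = 1 := by
  have := hh_pos n
  rw [tot_eq, node_last, node_zero, st_of_ge this (by linarith [hx.1]), st_of_le this hx.2,
    sub_zero]

theorem continuous_pu (n k : ℕ) : Continuous (pu n k) := continuous_bump _ _

theorem integrable_pu (n k : ℕ) : Integrable (pu n k) := integrable_bump (hh_pos n) _

theorem integral_pu (n k : ℕ) : ∫ x, pu n k x = hh n := integral_bump (hh_pos n) _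

theorem pu_support (n k : ℕ) {x : ℝ} (hx : pu n k x ≠ 0) :
    x ∈ Ioo (node n k) (node n k + 2 * hh n) := by
  by_contra hn
  exact hx (bump_eq_zero (hh_pos n) hn)

theorem pu_supp_subset (n : ℕ) {k : ℕ} (hk : k ≤ n) :
    Icc (node n k) (node n k + 2 * hh n) ⊆ Ioo (0 : ℝ) 1 := by
  intro y hy
  have h1 := node_pos n k
  have h2 := node_le_of_le n (k := k + 1) (by omega)
  rw [node_succ] at h2
  have := hh_pos n
  exact ⟨by linarith [hy.1], by linarith [hy.2]⟩

theorem tot_eq_zero (n : ℕ) (hx : x ∉ Ioo (0 : ℝ) 1) : tot n x = 0 := by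
  refine Finset.sum_eq_zero (fun k hk => ?_)
  by_contra hne
  have hk' : k ≤ n := by simpa [Nat.lt_succ_iff] using Finset.mem_range.1 hk
  exact hx (pu_supp_subset n hk' (Ioo_subset_Icc_self (pu_support n k hne)))

theorem continuous_tot (n : ℕ) : Continuous (tot n) :=
  continuous_finsetSum _ (fun k _ => continuous_pu n k)

theorem integrable_tot (n : ℕ) : Integrable (tot n) :=
  integrable_finsetSum _ (fun k _ => integrable_pu n k)

theorem one_sub_tot_integral (n : ℕ) : ∫ x in Ioo (0 : ℝ) 1, (1 - tot n x) ≤ 4 * hh n := by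
  have hp := hh_pos n
  rw [integral_sub (integrable_const 1) (integrable_tot n).integrableOn]
  have h1 : ∫ x in Ioo (0 : ℝ) 1, (1 : ℝ) = 1 := by simp
  have h2 : ∫ x in Ioo (0 : ℝ) 1, tot n x = ∫ x, tot n x :=
    setIntegral_eq_integral_of_forall_compl_eq_zero (fun x hx => tot_eq_zero n hx)
  have h3 : ∫ x, tot n x = ((n : ℝ) + 1) * hh n := by
    unfold tot
    rw [integral_finsetSum _ (fun k _ => integrable_pu n k)]
    simp [integral_pu]
  rw [h1, h2, h3]
  have := hh_mul n
  linarith

end Vale.Agent.P232.Slicing
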