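import Vale.Agent.P232.BandFree
import Vale.Agent.P232.Slicing.Main

/-!
The slicing inequality in the axis conventions of the band-free glue.
-/

open MeasureTheory Set Filter Topology

namespace Vale.Agent.P232.Slicing

theorem exists_perm {i j : Fin 3} (hij : i ≠ j) :
    ∃ e : Equiv.Perm (Fin 3), e 0 = i ∧ e 2 = j ∧ e 1 ≠ i ∧ e 1 ≠ j := by
  revert i j; decide

theorem height_eq {D : Set R3} (hdown : ∀ x ∈ D, ∀ y ∈ box, y ≤ x → y ∈ D)
    {e : Equiv.Perm (Fin 3)} {i j : Fin 3} (h0 : e 0 = i) (h2 : e 2 = j) (x z : ℝ) :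
    height D e x z = heightExt D i j z x := by
  have hpt : ∀ a c b, pt e a c b = mkPoint i j a b c := by
    intro a c b
    funext l
    obtain ⟨m, rfl⟩ := e.surjective l
    subst h0 h2
    simp only [pt, mkPoint, Equiv.symm_apply_apply, e.injective.eq_iff]
    fin_cases m <;> simp
  set t := heightExt D i j z x with ht
  have ht01 : t ∈ Icc (0 : ℝ) 1 := heightExt_mem D i j z x
  have hlo : Ioo 0 t ⊆ {y ∈ Ioo (0 : ℝ) 1 | pt e (cl x) (cl z) y ∈ D} := fun y hy =>
    ⟨⟨hy.1, hy.2.trans_le ht01.2⟩, by
      rw [hpt]; exact Vale.Agent.P232.mem_of_lt_height hdown (clamp_mem x) hy.1.le (clamp_mem z) hy.2⟩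
  have hhi : {y ∈ Ioo (0 : ℝ) 1 | pt e (cl x) (cl z) y ∈ D} ⊆ Ioc 0 t := fun y hy =>
    ⟨hy.1.1, le_height (Ioo_subset_Icc_self hy.1) (by simpa [hpt, clamp, cl] using hy.2)⟩
  refine le_antisymm ((measureReal_mono hhi (by simp)).trans (by simp [ht01.1])) ?_
  calc t = volume.real (Ioo 0 t) := by simp [ht01.1]
    _ ≤ _ := measureReal_mono hlo (section_finite D e _ _)

/-- `SlicingSpec` holds. -/
theorem slicing : SlicingSpec := by
  intro D M hD i j hij c s hc hs hc0 hs0 hcs z₀ hz₀ z₁ hz₁ hz
  obtain ⟨e, h0, h2, -, -⟩ := exists_perm hij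
  have hfun : ∀ z, (fun x => height D e x z) = heightExt D i j z :=
    fun z => funext fun x => height_eq hD.down h0 h2 x z
  have harea : ∀ z, area (height D e) z = sliceArea D i j z := fun z => by
    rw [area, sliceArea, intervalIntegral.integral_of_le zero_le_one,
      integral_Ioc_eq_integral_Ioo]
    simp only [height_eq hD.down h0 h2]
  have h := slice_le hD e hc hs (fun t _ => hc0 t) (fun t _ => hs0 t) (fun t _ => hcs t) hz₀ hz₁ hz
  simp only [harea, hfun] at h
  have hm : Measurable fun z => c (sliceArea D i j z) * len (heightExt D i j z) := by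
    refine (hc.measurable.comp (antitone_sliceArea hD.down).measurable).mul ?_
    simpa only [hfun] using measurable_len_slice hD e
  refine ⟨?_, ?_⟩
  · rw [intervalIntegrable_iff_integrableOn_Ioc_of_le zero_le_one]
    refine IntegrableOn.of_bound measure_Ioc_lt_top hm.aestronglyMeasurable 2
      (Eventually.of_forall fun z => ?_)
    have hf := height_anti_fst hD e z
    have hm01 := slice_mem (D := D) e z
    have l0 := len_nonneg hf hm01
    have l2 := len_le_two hf hm01
    rw [hfun] at l0 l2
    rw [Real.norm_eq_abs, abs_of_nonneg (mul_nonneg (hc0 _) l0)]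
    have hc1 : c (sliceArea D i j z) ≤ 1 := by
      nlinarith [hcs (sliceArea D i j z), sq_nonneg (s (sliceArea D i j z))]
    exact (mul_le_of_le_one_left l0 hc1).trans l2
  · rw [intervalIntegral.integral_of_le zero_le_one, integral_Ioc_eq_integral_Ioo]
    exact h

end Vale.Agent.P232.Slicing
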